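import Mathlib

/-! # P033: first rows of real circulant Hadamard matrices (shared definition) -/

open Finset

namespace Vale.Agent.Lib.P033.Core

/-- `x` is the first row of a real circulant Hadamard matrix of order `n`: the entries are `1` or
`-1` and the circulant matrix `H i j = x (j - i)` satisfies `H * Hᵀ = n • 1`. -/
def IsCircHadamardRow (n : ℕ) [NeZero n] (x : ZMod n → ℤ) : Prop :=
  (∀ i, x i = 1 ∨ x i = -1) ∧
    (Matrix.of fun i j : ZMod n => x (j - i)) * (Matrix.of fun i j : ZMod n => x (j - i)).transpose
      = (n : ℤ) • (1 : Matrix (ZMod n) (ZMod n) ℤ)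

/-- All nontrivial periodic autocorrelations vanish. -/
theorem autocorr {n : ℕ} [NeZero n] {x : ZMod n → ℤ} (hx : IsCircHadamardRow n x)
    {s : ZMod n} (hs : s ≠ 0) : ∑ i, x i * x (i + s) = 0 := by
  have h := congrFun (congrFun hx.2 0) (-s)
  simp only [Matrix.mul_apply, Matrix.of_apply, Matrix.transpose_apply, Matrix.smul_apply,
    Matrix.one_apply] at h
  have h0 : ¬ ((0 : ZMod n) = -s) := by
    intro h
    apply hs
    have := congrArg (fun t => -t) h
    simpa using this.symm
  rw [if_neg h0] at h
  simpa using h

end Vale.Agent.Lib.P033.Core
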