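import Vale.Agent.Lib.P033.Core

/-! # P033: the half-shift product of the first row of a circulant Hadamard matrix of order
`4 m`, `m` odd, has no period besides `n / 2` -/

open Finset

namespace Vale.Agent.Lib.P033.Eleven

open Vale.Agent.Lib.P033.Core

/-- The pairing lemma: a set of residues closed under a fixed-point-free involution is even. -/
theorem even_card {n : ℕ} [NeZero n] (S : Finset (ZMod n)) (h : ZMod n) (h0 : h ≠ 0)
    (hh : h + h = 0) (hS : ∀ i ∈ S, i + h ∈ S) : 2 ∣ S.card := by
  have hsum : ∑ _i ∈ S, (1 : ZMod 2) = 0 := by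
    refine Finset.sum_involution (fun i _ => i + h) ?_ ?_ ?_ ?_
    · intro i _
      decide
    · intro i _ _ he
      apply h0
      exact left_eq_add.mp he.symm
    · intro i hi
      exact hS i hi
    · intro i _
      simp only [add_assoc, hh, add_zero]
  rw [Finset.sum_const, nsmul_eq_mul, mul_one] at hsum
  exact (ZMod.natCast_eq_zero_iff _ _).mp hsum

theorem four_dvd {n : ℕ} [NeZero n] {x : ZMod n → ℤ} (hx : IsCircHadamardRow n x)
    {h s : ZMod n} (h0 : h ≠ 0) (hh : h + h = 0) (hs0 : s ≠ 0) (hsh : s ≠ h) :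
    4 ∣ (univ.filter fun i : ZMod n => x i = x (i + h) ∧ x (i + s) = x (i + s + h)).card := by
  classical
  have hsh' : s + h ≠ 0 := by
    intro he
    apply hsh
    have : s + h + h = h := by rw [he, zero_add]
    rwa [add_assoc, hh, add_zero] at this
  set u : ZMod n → ℤ := fun i => if x i = x (i + h) then x i else 0 with hu
  have hu2 : ∀ i, x i + x (i + h) = 2 * u i := by
    intro i
    simp only [hu]
    rcases hx.1 i with h1 | h1 <;> rcases hx.1 (i + h) with h2 | h2 <;> simp [h1, h2]
  have huh : ∀ i, u (i + h) = u i := by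
    intro i
    simp only [hu, add_assoc, hh, add_zero]
    by_cases he : x i = x (i + h)
    · rw [if_pos he, if_pos he.symm]
      exact he.symm
    · rw [if_neg he, if_neg (fun hc => he hc.symm)]
  have hshift : ∀ f : ZMod n → ℤ, ∑ i, f (i + h) = ∑ i, f i := fun f =>
    Equiv.sum_comp (Equiv.addRight h) f
  have hsum : ∑ i, u i * u (i + s) = 0 := by
    have h4 : ∑ i, (x i + x (i + h)) * (x (i + s) + x (i + s + h)) = 0 := by
      have e1 : ∑ i, x i * x (i + s) = 0 := autocorr hx hs0
      have e2 : ∑ i, x i * x (i + s + h) = 0 := by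
        have := autocorr hx hsh'
        simpa only [add_assoc] using this
      have e3 : ∑ i, x (i + h) * x (i + s) = 0 := by
        rw [← hshift (fun i => x (i + h) * x (i + s))]
        rw [← e2]
        refine Finset.sum_congr rfl fun i _ => ?_
        rw [show i + h + h = i by rw [add_assoc, hh, add_zero],
          show i + h + s = i + s + h by ring]
      have e4 : ∑ i, x (i + h) * x (i + s + h) = 0 := by
        rw [← e1, ← hshift (fun i => x i * x (i + s))]
        refine Finset.sum_congr rfl fun i _ => ?_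
        rw [show i + h + s = i + s + h by ring]
      have : ∀ i, (x i + x (i + h)) * (x (i + s) + x (i + s + h))
          = x i * x (i + s) + x i * x (i + s + h) + x (i + h) * x (i + s)
            + x (i + h) * x (i + s + h) := fun i => by ring
      simp only [this, Finset.sum_add_distrib, e1, e2, e3, e4, add_zero]
    have h5 : ∑ i, (x i + x (i + h)) * (x (i + s) + x (i + s + h))
        = 4 * ∑ i, u i * u (i + s) := by
      rw [Finset.mul_sum]
      refine Finset.sum_congr rfl fun i _ => ?_
      rw [hu2 i, hu2 (i + s)]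
      ring
    rw [h5] at h4
    omega
  have hg : ∀ i, u i * u (i + s) = 1 ∨ u i * u (i + s) = -1 ∨ u i * u (i + s) = 0 := by
    intro i
    have hv : ∀ j, u j = 1 ∨ u j = -1 ∨ u j = 0 := by
      intro j
      simp only [hu]
      split_ifs with hc
      · rcases hx.1 j with h1 | h1 <;> simp [h1]
      · simp
    rcases hv i with h1 | h1 | h1 <;> rcases hv (i + s) with h2 | h2 | h2 <;> simp [h1, h2]
  set N := univ.filter fun i : ZMod n => u i * u (i + s) = -1 with hN
  have hNeven : 2 ∣ N.card := by
    apply even_card N h h0 hh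
    intro i hi
    rw [hN, Finset.mem_filter] at hi ⊢
    refine ⟨Finset.mem_univ _, ?_⟩
    rw [huh i, show i + h + s = i + s + h by ring, huh (i + s)]
    exact hi.2
  have hcount : ((univ.filter fun i : ZMod n =>
      x i = x (i + h) ∧ x (i + s) = x (i + s + h)).card : ℤ) = 2 * (N.card : ℤ) := by
    have e1 : ((univ.filter fun i : ZMod n =>
        x i = x (i + h) ∧ x (i + s) = x (i + s + h)).card : ℤ)
        = ∑ i, (if x i = x (i + h) ∧ x (i + s) = x (i + s + h) then (1 : ℤ) else 0) := by
      rw [Finset.sum_boole]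
    have e2 : (N.card : ℤ) = ∑ i, (if u i * u (i + s) = -1 then (1 : ℤ) else 0) := by
      rw [Finset.sum_boole]
    rw [e1, e2, Finset.mul_sum]
    have e3 : ∑ i, (if x i = x (i + h) ∧ x (i + s) = x (i + s + h) then (1 : ℤ) else 0)
        = ∑ i, (2 * (if u i * u (i + s) = -1 then (1 : ℤ) else 0) + u i * u (i + s)) := by
      refine Finset.sum_congr rfl fun i _ => ?_
      have hnz : ∀ j, x j ≠ 0 := fun j => by rcases hx.1 j with h1 | h1 <;> simp [h1]
      by_cases hA : x i = x (i + h)
      · by_cases hB : x (i + s) = x (i + s + h)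
        · have hne : u i * u (i + s) ≠ 0 := by
            simp only [hu]
            rw [if_pos hA, if_pos hB]
            exact mul_ne_zero (hnz _) (hnz _)
          rw [if_pos ⟨hA, hB⟩]
          rcases hg i with h1 | h1 | h1
          · rw [h1]; norm_num
          · rw [h1]; norm_num
          · exact absurd h1 hne
        · have hz : u i * u (i + s) = 0 := by
            simp only [hu]
            rw [if_neg hB, mul_zero]
          rw [if_neg (fun hc => hB hc.2), hz]
          norm_num
      · have hz : u i * u (i + s) = 0 := by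
          simp only [hu]
          rw [if_neg hA, zero_mul]
        rw [if_neg (fun hc => hA hc.1), hz]
        norm_num
    rw [e3, Finset.sum_add_distrib, hsum, add_zero]
  obtain ⟨k, hk⟩ := hNeven
  refine ⟨k, ?_⟩
  have : ((univ.filter fun i : ZMod n =>
      x i = x (i + h) ∧ x (i + s) = x (i + s + h)).card : ℤ) = 2 * ((2 * k : ℕ) : ℤ) := by
    rw [hcount, hk]
  push_cast at this
  have h' : ((univ.filter fun i : ZMod n =>
      x i = x (i + h) ∧ x (i + s) = x (i + s + h)).card : ℤ) = ((4 * k : ℕ) : ℤ) := by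
    push_cast
    linarith
  exact_mod_cast h'

/-- Balance of the half-shift product. -/
theorem balance {n : ℕ} [NeZero n] {x : ZMod n → ℤ} (hx : IsCircHadamardRow n x)
    {h : ZMod n} (h0 : h ≠ 0) :
    2 * (univ.filter fun i : ZMod n => x i = x (i + h)).card = n := by
  have h1 := autocorr hx h0
  have h2 : ∀ i, x i * x (i + h) = 2 * (if x i = x (i + h) then (1 : ℤ) else 0) - 1 := by
    intro i
    rcases hx.1 i with h1 | h1 <;> rcases hx.1 (i + h) with h2 | h2 <;> simp [h1, h2]
  simp only [h2, Finset.sum_sub_distrib, ← Finset.mul_sum] at h1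
  rw [Finset.sum_boole, Finset.sum_const, Finset.card_univ, ZMod.card, nsmul_eq_mul, mul_one] at h1
  have h3 : ((2 * (univ.filter fun i : ZMod n => x i = x (i + h)).card : ℕ) : ℤ) = (n : ℤ) := by
    push_cast
    linarith
  exact_mod_cast h3

/-- No other period. -/
theorem period {m : ℕ} (hm : Odd m) [NeZero (4 * m)] {x : ZMod (4 * m) → ℤ}
    (hx : IsCircHadamardRow (4 * m) x) {h s : ZMod (4 * m)} (h0 : h ≠ 0) (hh : h + h = 0)
    (hper : ∀ i, x (i + s) * x (i + s + h) = x i * x (i + h)) : s = 0 ∨ s = h := by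
  by_contra hcon
  push Not at hcon
  have h4 := four_dvd hx h0 hh hcon.1 hcon.2
  have hbal := balance hx h0
  have heq : (univ.filter fun i : ZMod (4 * m) => x i = x (i + h) ∧ x (i + s) = x (i + s + h))
      = univ.filter fun i : ZMod (4 * m) => x i = x (i + h) := by
    refine Finset.filter_congr fun i _ => ⟨fun hc => hc.1, fun hc => ⟨hc, ?_⟩⟩
    have h1 := hper i
    rw [← hc] at h1
    rcases hx.1 i with h2 | h2 <;> rcases hx.1 (i + s) with h3 | h3 <;>
      rcases hx.1 (i + s + h) with h5 | h5 <;> rw [h2, h3, h5] at h1 <;> rw [h3, h5] <;>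
        norm_num at h1
  rw [heq] at h4
  obtain ⟨k, hk⟩ := h4
  obtain ⟨l, hl⟩ := hm
  omega

theorem eleven_main (m : ℕ) (hm : Odd m) [NeZero (4 * m)] (x : ZMod (4 * m) → ℤ)
    (hx : IsCircHadamardRow (4 * m) x) :
    (∀ s : ZMod (4 * m), s ≠ 0 → s ≠ ((2 * m : ℕ) : ZMod (4 * m)) →
      4 ∣ (univ.filter fun i : ZMod (4 * m) => x i = x (i + ((2 * m : ℕ) : ZMod (4 * m))) ∧
        x (i + s) = x (i + s + ((2 * m : ℕ) : ZMod (4 * m)))).card) ∧
    (∀ s : ZMod (4 * m),
      (∀ i, x (i + s) * x (i + s + ((2 * m : ℕ) : ZMod (4 * m)))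
        = x i * x (i + ((2 * m : ℕ) : ZMod (4 * m)))) →
      s = 0 ∨ s = ((2 * m : ℕ) : ZMod (4 * m))) ∧
    (∀ (a b : ZMod (4 * m) → ℤ) (d : ZMod (4 * m)), d ≠ 0 →
      (∀ i, a (i + ((2 * m : ℕ) : ZMod (4 * m))) = a i) → (∀ i, b (i + d) = b i) →
      ¬ ∀ i, x i = a i * b i) ∧
    ((∀ j : ZMod (4 * m), x (2 * j + 1 + ((2 * m : ℕ) : ZMod (4 * m))) = x (2 * j + 1)) →
      m = 1) := by
  have hmpos : 0 < m := hm.pos
  set h : ZMod (4 * m) := ((2 * m : ℕ) : ZMod (4 * m)) with hdef
  have h0 : h ≠ 0 := by
    rw [hdef, Ne, ZMod.natCast_eq_zero_iff]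
    intro hd
    have := Nat.le_of_dvd (by omega) hd
    omega
  have hh : h + h = 0 := by
    rw [hdef, ← Nat.cast_add, ZMod.natCast_eq_zero_iff]
    exact ⟨1, by ring⟩
  refine ⟨fun s hs0 hsh => four_dvd hx h0 hh hs0 hsh, fun s hs => period hm hx h0 hh hs, ?_, ?_⟩
  · intro a b d hd ha hb hxab
    have hy : ∀ i, x i * x (i + h) = b i * b (i + h) * (a i * a i) := by
      intro i
      rw [hxab i, hxab (i + h), ha i]
      ring
    have ha2 : ∀ i, a i * a i = 1 := by
      intro i
      have h1 : x i * x i = 1 := by rcases hx.1 i with h1 | h1 <;> simp [h1]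
      have h2 : (a i * a i) * (b i * b i) = 1 := by
        rw [← h1, hxab i]
        ring
      have h3 : IsUnit (a i * a i) := IsUnit.of_mul_eq_one _ h2
      rcases Int.isUnit_iff.mp h3 with h4 | h4
      · exact h4
      · nlinarith [mul_self_nonneg (a i)]
    have hper : ∀ i, x (i + d) * x (i + d + h) = x i * x (i + h) := by
      intro i
      rw [hy (i + d), hy i, ha2, ha2, hb i, show i + d + h = i + h + d by ring, hb (i + h)]
    rcases period hm hx h0 hh hper with h1 | h1
    · exact hd h1
    · have h2 : ∀ i, x i = x (i + h) := by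
        intro i
        rw [hxab i, hxab (i + h), ha i]
        rw [h1] at hb
        rw [hb i]
      have h3 := balance hx h0
      rw [Finset.filter_true_of_mem (fun i _ => h2 i), Finset.card_univ, ZMod.card] at h3
      omega
  · intro hodd
    have hpar : ∀ i : ZMod (4 * m), (∃ j, i = 2 * j) ∨ (∃ j, i = 2 * j + 1) := by
      intro i
      rcases Nat.even_or_odd' i.val with ⟨k, hk | hk⟩
      · left
        refine ⟨(k : ZMod (4 * m)), ?_⟩
        rw [← ZMod.natCast_zmod_val i, hk]
        push_cast
        rfl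
      · right
        refine ⟨(k : ZMod (4 * m)), ?_⟩
        rw [← ZMod.natCast_zmod_val i, hk]
        push_cast
        rfl
    have hsq : ∀ i, x i * x i = 1 := fun i => by rcases hx.1 i with h1 | h1 <;> simp [h1]
    have hge : ∀ i j, -1 ≤ x i * x j := fun i j => by
      rcases hx.1 i with h1 | h1 <;> rcases hx.1 j with h2 | h2 <;> simp [h1, h2]
    have hnn : ∀ i, 0 ≤ x i * x (i + h) + x (i + 1) * x (i + 1 + h) := by
      intro i
      rcases hpar i with ⟨j, hj⟩ | ⟨j, hj⟩
      · have h1 := hodd j
        rw [← hj] at h1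
        rw [h1, hsq]
        have := hge i (i + h)
        linarith
      · have h1 := hodd j
        rw [← hj] at h1
        rw [h1, hsq]
        have := hge (i + 1) (i + 1 + h)
        linarith
    have hs0 : ∑ i, (x i * x (i + h) + x (i + 1) * x (i + 1 + h)) = 0 := by
      rw [Finset.sum_add_distrib, autocorr hx h0, zero_add]
      exact (Equiv.sum_comp (Equiv.addRight (1 : ZMod (4 * m)))
        (fun i => x i * x (i + h))).trans (autocorr hx h0)
    have hz := (Finset.sum_eq_zero_iff_of_nonneg (fun i _ => hnn i)).mp hs0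
    have hper2 : ∀ i, x (i + 2) * x (i + 2 + h) = x i * x (i + h) := by
      intro i
      have h1 := hz i (Finset.mem_univ _)
      have h2 := hz (i + 1) (Finset.mem_univ _)
      rw [show i + 1 + 1 = i + 2 by ring] at h2
      linarith
    rcases period hm hx h0 hh hper2 with h1 | h1
    · exfalso
      have h2 : ((2 : ℕ) : ZMod (4 * m)) = 0 := by exact_mod_cast h1
      rw [ZMod.natCast_eq_zero_iff] at h2
      have := Nat.le_of_dvd (by norm_num) h2
      omega
    · have h2 : ((2 : ℕ) : ZMod (4 * m)) = ((2 * m : ℕ) : ZMod (4 * m)) := by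
        rw [← hdef, ← h1]
        norm_num
      rw [ZMod.natCast_eq_natCast_iff'] at h2
      rw [Nat.mod_eq_of_lt (by omega), Nat.mod_eq_of_lt (by omega)] at h2
      omega

end Vale.Agent.Lib.P033.Eleven
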