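import Vale.Agent.Lib.P033.Core

/-! # P033: the quarter-shift product `x i * x (i + m) * x (i + 2 m) * x (i + 3 m)` has no period
besides the multiples of `n / 4 = m` -/

open Finset

namespace Vale.Agent.Lib.P033.ElevenQ

open Vale.Agent.Lib.P033.Core

theorem sum_zmod {n : ℕ} [NeZero n] (F : ZMod n → ℤ) :
    ∑ i, F i = ∑ k ∈ range n, F (k : ZMod n) := by
  refine Finset.sum_bij' (fun i _ => i.val) (fun k _ => (k : ZMod n)) ?_ ?_ ?_ ?_ ?_
  · intro i _
    exact Finset.mem_range.mpr (ZMod.val_lt i)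
  · intro k _
    exact Finset.mem_univ _
  · intro i _
    exact ZMod.natCast_zmod_val i
  · intro k hk
    exact ZMod.val_cast_of_lt (Finset.mem_range.mp hk)
  · intro i _
    rw [ZMod.natCast_zmod_val]

theorem sum_four {m : ℕ} [NeZero (4 * m)] (F : ZMod (4 * m) → ℤ)
    (hF : ∀ i, F (i + (m : ZMod (4 * m))) = F i) :
    ∑ i, F i = 4 * ∑ k ∈ range m, F (k : ZMod (4 * m)) := by
  rw [sum_zmod]
  have h1 : ∀ a : ℕ, ∀ i, F (((a * m : ℕ) : ZMod (4 * m)) + i) = F i := by
    intro a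
    induction a with
    | zero => intro i; simp
    | succ a ih =>
      intro i
      rw [show (((a + 1) * m : ℕ) : ZMod (4 * m)) + i = ((a * m : ℕ) : ZMod (4 * m)) + i
        + (m : ZMod (4 * m)) by push_cast; ring, hF, ih]
  have h2 : ∀ a : ℕ, ∑ k ∈ range (a * m), F (k : ZMod (4 * m))
      = a * ∑ k ∈ range m, F (k : ZMod (4 * m)) := by
    intro a
    induction a with
    | zero => simp
    | succ a ih =>
      rw [add_mul, one_mul, Finset.sum_range_add, ih]
      have : ∀ k ∈ range m, F ((a * m + k : ℕ) : ZMod (4 * m)) = F (k : ZMod (4 * m)) := by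
        intro k _
        rw [Nat.cast_add, h1 a]
      rw [Finset.sum_congr rfl this]
      push_cast
      ring
  rw [h2 4]
  norm_num

/-- The coset sums. -/
noncomputable def c {m : ℕ} [NeZero (4 * m)] (x : ZMod (4 * m) → ℤ) (i : ZMod (4 * m)) : ℤ :=
  ∑ a ∈ range 4, x (i + (a : ZMod (4 * m)) * (m : ZMod (4 * m)))

/-- The quarter product. -/
def w {m : ℕ} (x : ZMod (4 * m) → ℤ) (i : ZMod (4 * m)) : ℤ :=
  x i * x (i + (m : ZMod (4 * m))) * x (i + 2 * (m : ZMod (4 * m)))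
    * x (i + 3 * (m : ZMod (4 * m)))

theorem four_q {m : ℕ} : 4 * (m : ZMod (4 * m)) = 0 := by
  have : ((4 * m : ℕ) : ZMod (4 * m)) = 0 := ZMod.natCast_self _
  push_cast at this
  exact this

theorem c_eq {m : ℕ} [NeZero (4 * m)] (x : ZMod (4 * m) → ℤ) (i : ZMod (4 * m)) :
    c x i = x i + x (i + (m : ZMod (4 * m))) + x (i + 2 * (m : ZMod (4 * m)))
      + x (i + 3 * (m : ZMod (4 * m))) := by
  simp [c, Finset.sum_range_succ]

theorem c_per {m : ℕ} [NeZero (4 * m)] (x : ZMod (4 * m) → ℤ) (i : ZMod (4 * m)) :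
    c x (i + (m : ZMod (4 * m))) = c x i := by
  rw [c_eq, c_eq]
  have h4 : i + (m : ZMod (4 * m)) + 3 * (m : ZMod (4 * m)) = i := by
    have := four_q (m := m)
    linear_combination this
  rw [h4, show i + (m : ZMod (4 * m)) + (m : ZMod (4 * m)) = i + 2 * (m : ZMod (4 * m)) by ring,
    show i + (m : ZMod (4 * m)) + 2 * (m : ZMod (4 * m)) = i + 3 * (m : ZMod (4 * m)) by ring]
  ring

theorem auto {n : ℕ} [NeZero n] {x : ZMod n → ℤ} (hx : IsCircHadamardRow n x) (t : ZMod n) :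
    ∑ i, x i * x (i + t) = if t = 0 then (n : ℤ) else 0 := by
  by_cases ht : t = 0
  · rw [if_pos ht, ht]
    have : ∀ i, x i * x (i + 0) = 1 := fun i => by
      rw [add_zero]
      rcases hx.1 i with h1 | h1 <;> simp [h1]
    rw [Finset.sum_congr rfl fun i _ => this i]
    simp [ZMod.card]
  · rw [if_neg ht]
    exact autocorr hx ht

theorem c_corr {m : ℕ} [NeZero (4 * m)] {x : ZMod (4 * m) → ℤ}
    (hx : IsCircHadamardRow (4 * m) x) (s : ZMod (4 * m)) :
    ∑ i, c x i * c x (i + s) = ∑ a ∈ range 4, ∑ b ∈ range 4,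
      if s + ((b : ZMod (4 * m)) - a) * (m : ZMod (4 * m)) = 0 then ((4 * m : ℕ) : ℤ) else 0 := by
  simp only [c, Finset.sum_mul_sum]
  rw [Finset.sum_comm]
  refine Finset.sum_congr rfl fun a _ => ?_
  rw [Finset.sum_comm]
  refine Finset.sum_congr rfl fun b _ => ?_
  rw [← auto hx, ← Equiv.sum_comp (Equiv.addRight ((a : ZMod (4 * m)) * (m : ZMod (4 * m))))
    (fun i => x i * x (i + (s + ((b : ZMod (4 * m)) - a) * (m : ZMod (4 * m)))))]
  refine Finset.sum_congr rfl fun i _ => ?_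
  simp only [Equiv.coe_addRight]
  congr 2
  ring

theorem corr_zero {m : ℕ} [NeZero (4 * m)] {x : ZMod (4 * m) → ℤ}
    (hx : IsCircHadamardRow (4 * m) x) {s : ZMod (4 * m)} (hs : 4 * s ≠ 0) :
    ∑ i, c x i * c x (i + s) = 0 := by
  rw [c_corr hx]
  refine Finset.sum_eq_zero fun a _ => Finset.sum_eq_zero fun b _ => ?_
  rw [if_neg]
  intro h
  apply hs
  have h4 := four_q (m := m)
  linear_combination 4 * h - ((b : ZMod (4 * m)) - a) * h4

theorem corr_self {m : ℕ} (hm : 0 < m) [NeZero (4 * m)] {x : ZMod (4 * m) → ℤ}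
    (hx : IsCircHadamardRow (4 * m) x) :
    ∑ i, c x i * c x (i + 0) = 16 * m := by
  rw [c_corr hx]
  have : ∀ a ∈ range 4, ∀ b ∈ range 4,
      (if 0 + ((b : ZMod (4 * m)) - a) * (m : ZMod (4 * m)) = 0 then ((4 * m : ℕ) : ℤ) else 0)
        = if a = b then ((4 * m : ℕ) : ℤ) else 0 := by
    intro a ha b hb
    rw [Finset.mem_range] at ha hb
    by_cases hab : a = b
    · rw [if_pos hab, if_pos]
      rw [hab]
      ring
    · rw [if_neg hab, if_neg]
      intro h
      apply hab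
      have h1 : ((b * m : ℕ) : ZMod (4 * m)) = ((a * m : ℕ) : ZMod (4 * m)) := by
        push_cast
        linear_combination h
      rw [ZMod.natCast_eq_natCast_iff', Nat.mod_eq_of_lt (by nlinarith),
        Nat.mod_eq_of_lt (by nlinarith)] at h1
      exact (Nat.eq_of_mul_eq_mul_right hm h1).symm
  rw [Finset.sum_congr rfl fun a ha => Finset.sum_congr rfl fun b hb => this a ha b hb]
  simp [Finset.sum_range_succ]
  ring

/-- `c / 2`. -/
noncomputable def e {m : ℕ} [NeZero (4 * m)] (x : ZMod (4 * m) → ℤ) (i : ZMod (4 * m)) : ℤ :=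
  c x i / 2

theorem e_spec {m : ℕ} [NeZero (4 * m)] {x : ZMod (4 * m) → ℤ}
    (hx : IsCircHadamardRow (4 * m) x) (i : ZMod (4 * m)) :
    c x i = 2 * e x i ∧ e x i % 2 = (if w x i = -1 then 1 else 0) ∧
      (e x i * e x i) % 4 = (if w x i = -1 then 1 else 0) := by
  unfold e w
  rw [c_eq]
  rcases hx.1 i with h1 | h1 <;> rcases hx.1 (i + (m : ZMod (4 * m))) with h2 | h2 <;>
    rcases hx.1 (i + 2 * (m : ZMod (4 * m))) with h3 | h3 <;>
    rcases hx.1 (i + 3 * (m : ZMod (4 * m))) with h4 | h4 <;>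
    rw [h1, h2, h3, h4] <;> norm_num

theorem E_zero {m : ℕ} [NeZero (4 * m)] {x : ZMod (4 * m) → ℤ}
    (hx : IsCircHadamardRow (4 * m) x) {s : ZMod (4 * m)} (hs : 4 * s ≠ 0) :
    ∑ k ∈ range m, e x (k : ZMod (4 * m)) * e x ((k : ZMod (4 * m)) + s) = 0 := by
  have h1 := corr_zero hx hs
  rw [sum_four (fun i => c x i * c x (i + s))
    (fun i => by rw [c_per, show i + (m : ZMod (4 * m)) + s = i + s + (m : ZMod (4 * m)) by ring,
      c_per])] at h1
  have h2 : ∀ k ∈ range m, c x (k : ZMod (4 * m)) * c x ((k : ZMod (4 * m)) + s)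
      = 4 * (e x (k : ZMod (4 * m)) * e x ((k : ZMod (4 * m)) + s)) := by
    intro k _
    rw [(e_spec hx (k : ZMod (4 * m))).1, (e_spec hx ((k : ZMod (4 * m)) + s)).1]
    ring
  rw [Finset.sum_congr rfl h2, ← Finset.mul_sum] at h1
  omega

theorem E_self {m : ℕ} (hm : 0 < m) [NeZero (4 * m)] {x : ZMod (4 * m) → ℤ}
    (hx : IsCircHadamardRow (4 * m) x) :
    ∑ k ∈ range m, e x (k : ZMod (4 * m)) * e x (k : ZMod (4 * m)) = m := by
  have h1 := corr_self hm hx
  simp only [add_zero] at h1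
  rw [sum_four (fun i => c x i * c x i) (fun i => by rw [c_per])] at h1
  have h2 : ∀ k ∈ range m, c x (k : ZMod (4 * m)) * c x (k : ZMod (4 * m))
      = 4 * (e x (k : ZMod (4 * m)) * e x (k : ZMod (4 * m))) := by
    intro k _
    rw [(e_spec hx (k : ZMod (4 * m))).1]
    ring
  rw [Finset.sum_congr rfl h2, ← Finset.mul_sum] at h1
  omega

theorem modEq_sum {m : ℕ} (f g : ℕ → ℤ) (N : ℤ) (h : ∀ k ∈ range m, f k ≡ g k [ZMOD N]) :
    ∑ k ∈ range m, f k ≡ ∑ k ∈ range m, g k [ZMOD N] := by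
  induction m with
  | zero => simp
  | succ m ih =>
    rw [Finset.sum_range_succ, Finset.sum_range_succ]
    exact (ih fun k hk => h k (Finset.mem_range.mpr
      (Nat.lt_succ_of_lt (Finset.mem_range.mp hk)))).add (h m (Finset.self_mem_range_succ m))

theorem elevenQ_main (m : ℕ) (hm : Odd m) [NeZero (4 * m)] (x : ZMod (4 * m) → ℤ)
    (hx : IsCircHadamardRow (4 * m) x) :
    ((range m).filter fun k : ℕ => w x (k : ZMod (4 * m)) = -1).card % 4 = m % 4 ∧
    (∀ s : ZMod (4 * m), 4 * s ≠ 0 →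
      2 ∣ ((range m).filter fun k : ℕ => w x (k : ZMod (4 * m)) = -1 ∧
        w x ((k : ZMod (4 * m)) + s) = -1).card) ∧
    (∀ s : ZMod (4 * m), (∀ i, w x (i + s) = w x i) → 4 * s = 0) := by
  have hmpos := hm.pos
  have hcard : ((range m).filter fun k : ℕ => w x (k : ZMod (4 * m)) = -1).card % 4 = m % 4 := by
    have h1 : ∑ k ∈ range m, e x (k : ZMod (4 * m)) * e x (k : ZMod (4 * m))
        ≡ ∑ k ∈ range m, (if w x (k : ZMod (4 * m)) = -1 then (1 : ℤ) else 0) [ZMOD 4] := by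
      apply modEq_sum
      intro k _
      have := (e_spec hx (k : ZMod (4 * m))).2.2
      rw [Int.ModEq, this]
      split_ifs <;> norm_num
    rw [E_self hmpos hx, Finset.sum_boole, Int.ModEq] at h1
    omega
  have heven : ∀ s : ZMod (4 * m), 4 * s ≠ 0 →
      2 ∣ ((range m).filter fun k : ℕ => w x (k : ZMod (4 * m)) = -1 ∧
        w x ((k : ZMod (4 * m)) + s) = -1).card := by
    intro s hs
    have h1 : ∑ k ∈ range m, e x (k : ZMod (4 * m)) * e x ((k : ZMod (4 * m)) + s)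
        ≡ ∑ k ∈ range m, (if w x (k : ZMod (4 * m)) = -1 ∧ w x ((k : ZMod (4 * m)) + s) = -1
          then (1 : ℤ) else 0) [ZMOD 2] := by
      apply modEq_sum
      intro k _
      have ha := (e_spec hx (k : ZMod (4 * m))).2.1
      have hb := (e_spec hx ((k : ZMod (4 * m)) + s)).2.1
      rw [Int.ModEq, Int.mul_emod, ha, hb]
      by_cases h1 : w x (k : ZMod (4 * m)) = -1 <;>
        by_cases h2 : w x ((k : ZMod (4 * m)) + s) = -1 <;> simp [h1, h2]
    rw [E_zero hx hs, Finset.sum_boole, Int.ModEq] at h1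
    omega
  refine ⟨hcard, heven, ?_⟩
  intro s hs
  by_contra hne
  have h1 := heven s hne
  have h2 : ((range m).filter fun k : ℕ => w x (k : ZMod (4 * m)) = -1 ∧
        w x ((k : ZMod (4 * m)) + s) = -1)
      = (range m).filter fun k : ℕ => w x (k : ZMod (4 * m)) = -1 := by
    refine Finset.filter_congr fun k _ => ⟨fun hc => hc.1, fun hc => ⟨hc, ?_⟩⟩
    rw [hs, hc]
  rw [h2] at h1
  obtain ⟨k, hk⟩ := h1
  obtain ⟨l, hl⟩ := hm
  omega

end Vale.Agent.Lib.P033.ElevenQ
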