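import Mathlib

namespace Vale.Agent.P033.H25

open Finset

theorem coeff_sum_single (p m : ℕ) [NeZero m] (g : ZMod m → ZMod m) (v : ZMod m → ZMod p)
    (k : ZMod m) :
    (∑ j : ZMod m, (AddMonoidAlgebra.single (g j) (v j) :
      AddMonoidAlgebra (ZMod p) (ZMod m))).coeff k =
      ∑ j : ZMod m, if g j = k then v j else 0 := by
  classical
  rw [AddMonoidAlgebra.coeff_sum, Finsupp.finsetSum_apply]
  apply Finset.sum_congr rfl
  intro j _
  rw [AddMonoidAlgebra.coeff_single, Finsupp.single_apply]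

/-- Frobenius argument: a function `f` on `ZMod m` with `f * f = n δ_c` (convolution),
`n = w ^ 2` -/
theorem frob_modp (m : ℕ) [NeZero m] (f : ZMod m → ℤ) (c : ZMod m) (w : ℤ)
    (hconv : ∀ k : ZMod m, ∑ j, f j * f (k - j) = if k = c then w ^ 2 else 0)
    (p r : ℕ) (hp : p.Prime) (hpr : p = 2 * r + 1) (hpw : ¬ (p : ℤ) ∣ w)
    (hpm : IsUnit (p : ZMod m)) (j : ZMod m) :
    (p : ℤ) ∣ f j - f ((p : ZMod m) * j - (r : ZMod m) * c) := by
  classical
  have hpF : Fact p.Prime := ⟨hp⟩
  have hchar : CharP (AddMonoidAlgebra (ZMod p) (ZMod m)) p := charP_of_injective_algebraMap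
    (R := ZMod p) (A := AddMonoidAlgebra (ZMod p) (ZMod m))
      ((algebraMap (ZMod p) (AddMonoidAlgebra (ZMod p) (ZMod m))).injective) p
  obtain ⟨F, hF⟩ : ∃ F : AddMonoidAlgebra (ZMod p) (ZMod m),
      F = ∑ j : ZMod m, AddMonoidAlgebra.single j ((f j : ℤ) : ZMod p) := ⟨_, rfl⟩
  have hFF : F * F = AddMonoidAlgebra.single c ((w : ZMod p) ^ 2) := by
    rw [hF, Finset.sum_mul_sum]
    apply AddMonoidAlgebra.ext
    ext k
    have e1 : ∀ i : ZMod m, (∑ j : ZMod m, (AddMonoidAlgebra.single i ((f i : ℤ) : ZMod p) *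
        AddMonoidAlgebra.single j ((f j : ℤ) : ZMod p) : AddMonoidAlgebra (ZMod p) (ZMod m))) =
        ∑ j : ZMod m, (AddMonoidAlgebra.single (i + j) (((f i : ℤ) : ZMod p) *
          ((f j : ℤ) : ZMod p))) := by
      intro i
      apply Finset.sum_congr rfl
      intro j _
      rw [AddMonoidAlgebra.single_mul_single]
    rw [Finset.sum_congr rfl (fun i _ => e1 i), AddMonoidAlgebra.coeff_sum,
      Finsupp.finsetSum_apply]
    rw [Finset.sum_congr rfl (fun i _ => coeff_sum_single p m (fun j => i + j) _ k)]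
    have e2 : ∀ i : ZMod m, (∑ j : ZMod m, if i + j = k then ((f i : ℤ) : ZMod p) *
          ((f j : ℤ) : ZMod p) else 0) = ((f i * f (k - i) : ℤ) : ZMod p) := by
      intro i
      rw [Finset.sum_eq_single (k - i)]
      · simp
      · intro b _ hb
        rw [if_neg]
        intro h
        exact hb (by rw [← h]; abel)
      · intro h
        exact absurd (Finset.mem_univ _) h
    rw [Finset.sum_congr rfl (fun i _ => e2 i), ← Int.cast_sum, hconv k,
      AddMonoidAlgebra.coeff_single, Finsupp.single_apply]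
    by_cases hk : k = c
    · rw [if_pos hk, if_pos hk.symm]
      push_cast
      rfl
    · rw [if_neg hk, if_neg (fun h => hk h.symm)]
      simp
  have h1 : F ^ p = ∑ j : ZMod m, (AddMonoidAlgebra.single (p • j) ((f j : ℤ) : ZMod p)) := by
    rw [hF, sum_pow_char]
    apply Finset.sum_congr rfl
    intro j _
    rw [AddMonoidAlgebra.single_pow, ZMod.pow_card]
  have hw1 : ((w : ZMod p) ^ 2) ^ r = 1 := by
    rw [← pow_mul]
    have h3 : 2 * r = p - 1 := by omega
    rw [h3]
    apply ZMod.pow_card_sub_one_eq_one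
    intro h0
    exact hpw ((ZMod.intCast_zmod_eq_zero_iff_dvd w p).1 h0)
  have h2 : F ^ p = ∑ j : ZMod m,
      (AddMonoidAlgebra.single (j + r • c) ((f j : ℤ) : ZMod p)) := by
    have e1 : F ^ p = F ^ (2 * r + 1) := congrArg (fun x => F ^ x) hpr
    rw [e1, pow_succ, pow_mul, pow_two, hFF, AddMonoidAlgebra.single_pow, hw1]
    rw [hF, Finset.mul_sum]
    apply Finset.sum_congr rfl
    intro j _
    rw [AddMonoidAlgebra.single_mul_single, one_mul, add_comm]
  have h3 := h1.symm.trans h2
  have h4 := congrArg (fun G : AddMonoidAlgebra (ZMod p) (ZMod m) =>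
    G.coeff ((p : ZMod m) * j)) h3
  simp only [coeff_sum_single] at h4
  rw [Finset.sum_eq_single j, Finset.sum_eq_single ((p : ZMod m) * j - (r : ZMod m) * c)] at h4
  · rw [if_pos (by rw [nsmul_eq_mul]), if_pos (by rw [nsmul_eq_mul]; abel)] at h4
    have h5 : ((f j - f ((p : ZMod m) * j - (r : ZMod m) * c) : ℤ) : ZMod p) = 0 := by
      push_cast
      rw [h4, sub_self]
    exact (ZMod.intCast_zmod_eq_zero_iff_dvd _ p).1 h5
  · intro b _ hb
    rw [if_neg]
    intro h
    apply hb
    rw [← h, nsmul_eq_mul]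
    abel
  · intro h
    exact absurd (Finset.mem_univ _) h
  · intro b _ hb
    rw [if_neg]
    intro h
    apply hb
    rw [nsmul_eq_mul] at h
    exact hpm.mul_left_cancel h
  · intro h
    exact absurd (Finset.mem_univ _) h

end Vale.Agent.P033.H25
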