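import Mathlib
import Vale.Agent.Lib.P033.Ring

namespace Vale.Agent.P033.H25

open Finset

theorem fiber_card (n m : ℕ) [NeZero n] [NeZero m] (h : m ∣ n) (x : ZMod m) :
    (univ.filter (fun i : ZMod n => ZMod.castHom h (ZMod m) i = x)).card * m = n := by
  classical
  have heq : ∀ x : ZMod m, (univ.filter (fun i : ZMod n => ZMod.castHom h (ZMod m) i = x)).card =
      (univ.filter (fun i : ZMod n => ZMod.castHom h (ZMod m) i = 0)).card := by
    intro x
    obtain ⟨a, ha⟩ := ZMod.castHom_surjective h x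
    apply Finset.card_bij' (fun i _ => i - a) (fun i _ => i + a)
    · intro i hi
      rw [Finset.mem_filter] at hi ⊢
      exact ⟨Finset.mem_univ _, by rw [map_sub, hi.2, ha, sub_self]⟩
    · intro i hi
      rw [Finset.mem_filter] at hi ⊢
      exact ⟨Finset.mem_univ _, by rw [map_add, hi.2, ha, zero_add]⟩
    · intro i _
      abel
    · intro i _
      abel
  have hsum : (univ : Finset (ZMod n)).card =
      ∑ y ∈ (univ : Finset (ZMod m)),
        (univ.filter (fun i : ZMod n => ZMod.castHom h (ZMod m) i = y)).card :=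
    Finset.card_eq_sum_card_fiberwise (fun _ _ => Finset.mem_coe.2 (Finset.mem_univ _))
  rw [Finset.sum_congr rfl (fun y _ => heq y), Finset.sum_const, Finset.card_univ,
    Finset.card_univ, ZMod.card, ZMod.card, smul_eq_mul] at hsum
  rw [heq x, mul_comm]
  exact hsum.symm

/-- the folded sequence -/
noncomputable def fold (n m : ℕ) [NeZero n] (hm : m ∣ n) (h : ZMod n → ℤ) (x : ZMod m) : ℤ :=
  ∑ i : ZMod n, if ZMod.castHom hm (ZMod m) i = x then h i else 0

theorem fold_abs (n m : ℕ) [NeZero n] [NeZero m] (hm : m ∣ n) (h : ZMod n → ℤ)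
    (h1 : ∀ i, h i = 1 ∨ h i = -1) (x : ZMod m) :
    |fold n m hm h x| * (m : ℤ) ≤ n := by
  classical
  have e1 : |fold n m hm h x| ≤
      ((univ.filter (fun i : ZMod n => ZMod.castHom hm (ZMod m) i = x)).card : ℤ) := by
    unfold fold
    rw [← Finset.sum_filter]
    refine (Finset.abs_sum_le_sum_abs _ _).trans ?_
    rw [Finset.card_eq_sum_ones]
    push_cast
    apply Finset.sum_le_sum
    intro i _
    rcases h1 i with h | h <;> rw [h] <;> norm_num
  have e2 := fiber_card n m hm x
  have e3 : ((univ.filter (fun i : ZMod n => ZMod.castHom hm (ZMod m) i = x)).card : ℤ) *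
      (m : ℤ) = n := by exact_mod_cast e2
  calc |fold n m hm h x| * (m : ℤ) ≤ _ * (m : ℤ) :=
        mul_le_mul_of_nonneg_right e1 (by positivity)
    _ = n := e3

theorem fold_auto (n m : ℕ) [NeZero n] [NeZero m] (hm : m ∣ n) (h : ZMod n → ℤ)
    (h1 : ∀ i, h i = 1 ∨ h i = -1) (h2 : ∀ s : ZMod n, s ≠ 0 → ∑ j, h j * h (j + s) = 0)
    (s : ZMod m) :
    ∑ x, fold n m hm h x * fold n m hm h (x + s) = if s = 0 then (n : ℤ) else 0 := by
  classical
  have hP : ∀ e : ZMod n, ∑ j, h j * h (j + e) = if e = 0 then (n : ℤ) else 0 := by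
    intro e
    by_cases he : e = 0
    · rw [if_pos he, he]
      have : ∀ j : ZMod n, h j * h (j + 0) = 1 := by
        intro j
        rw [add_zero]
        rcases h1 j with h | h <;> rw [h] <;> norm_num
      rw [Finset.sum_congr rfl (fun j _ => this j)]
      simp [ZMod.card]
    · rw [if_neg he, h2 e he]
  have a1 : ∀ x : ZMod m, fold n m hm h x * fold n m hm h (x + s) =
      ∑ i : ZMod n, if ZMod.castHom hm (ZMod m) i = x then
        h i * fold n m hm h (ZMod.castHom hm (ZMod m) i + s) else 0 := by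
    intro x
    conv_lhs => rw [fold]
    rw [Finset.sum_mul]
    apply Finset.sum_congr rfl
    intro i _
    by_cases hi : ZMod.castHom hm (ZMod m) i = x
    · rw [if_pos hi, if_pos hi, hi]
    · rw [if_neg hi, if_neg hi, zero_mul]
  rw [Finset.sum_congr rfl (fun x _ => a1 x), Finset.sum_comm]
  have a2 : ∀ i : ZMod n, (∑ x : ZMod m, if ZMod.castHom hm (ZMod m) i = x then
        h i * fold n m hm h (ZMod.castHom hm (ZMod m) i + s) else 0) =
      ∑ e : ZMod n, if ZMod.castHom hm (ZMod m) e = s then h i * h (i + e) else 0 := by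
    intro i
    rw [Finset.sum_ite_eq]
    rw [if_pos (Finset.mem_univ _)]
    unfold fold
    rw [Finset.mul_sum]
    rw [← Equiv.sum_comp (Equiv.addLeft i)]
    apply Finset.sum_congr rfl
    intro e _
    have e0 : (Equiv.addLeft i) e = i + e := rfl
    rw [e0]
    by_cases he : ZMod.castHom hm (ZMod m) e = s
    · rw [if_pos he, if_pos (by rw [map_add, he])]
    · rw [if_neg he, if_neg, mul_zero]
      intro h3
      rw [map_add] at h3
      exact he (add_left_cancel h3)
  rw [Finset.sum_congr rfl (fun i _ => a2 i), Finset.sum_comm]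
  have a3 : ∀ e : ZMod n, (∑ i : ZMod n, if ZMod.castHom hm (ZMod m) e = s then
      h i * h (i + e) else 0) = if e = 0 then (if s = 0 then (n : ℤ) else 0) else 0 := by
    intro e
    by_cases he : ZMod.castHom hm (ZMod m) e = s
    · simp only [if_pos he]
      rw [hP e]
      by_cases h0 : e = 0
      · rw [if_pos h0, if_pos h0, if_pos (by rw [← he, h0, map_zero])]
      · rw [if_neg h0, if_neg h0]
    · simp only [if_neg he]
      rw [Finset.sum_const_zero]
      by_cases h0 : e = 0
      · rw [if_pos h0, if_neg]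
        intro hs
        apply he
        rw [h0, hs, map_zero]
      · rw [if_neg h0]
  rw [Finset.sum_congr rfl (fun e _ => a3 e), Finset.sum_ite_eq' ]
  rw [if_pos (Finset.mem_univ _)]

theorem fold_refl (n m : ℕ) [NeZero n] [NeZero m] (hm : m ∣ n) (h : ZMod n → ℤ)
    (t c : ZMod n) (ht : IsUnit t) (ht1 : ZMod.castHom hm (ZMod m) t = -1)
    (hinv : ∀ j, h (t * j + c) = h j) (x : ZMod m) :
    fold n m hm h (ZMod.castHom hm (ZMod m) c - x) = fold n m hm h x := by
  classical
  obtain ⟨u, rfl⟩ := ht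
  unfold fold
  rw [← Equiv.sum_comp ((Units.mulLeft u).trans (Equiv.addRight c))]
  apply Finset.sum_congr rfl
  intro i _
  have e1 : ((Units.mulLeft u).trans (Equiv.addRight c)) i = (u : ZMod n) * i + c := rfl
  rw [e1, hinv i, map_add, map_mul, ht1]
  by_cases hx : ZMod.castHom hm (ZMod m) i = x
  · rw [if_pos hx, if_pos (by rw [hx]; ring)]
  · rw [if_neg hx, if_neg]
    intro h3
    apply hx
    have h4 : -1 * ZMod.castHom hm (ZMod m) i = - x := by
      have h6 : -1 * ZMod.castHom hm (ZMod m) i + ZMod.castHom hm (ZMod m) c -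
          ZMod.castHom hm (ZMod m) c = ZMod.castHom hm (ZMod m) c - x -
          ZMod.castHom hm (ZMod m) c := by rw [h3]
      rw [add_sub_cancel_right] at h6
      rw [h6]; ring
    have h5 : -(-1 * ZMod.castHom hm (ZMod m) i) = -(-x) := by rw [h4]
    rw [neg_neg] at h5
    rw [← h5]; ring

theorem sum_sq (n : ℕ) [NeZero n] (h : ZMod n → ℤ)
    (h1 : ∀ i, h i = 1 ∨ h i = -1) (h2 : ∀ s : ZMod n, s ≠ 0 → ∑ j, h j * h (j + s) = 0) :
    (∑ i, h i) ^ 2 = (n : ℤ) := by
  classical
  have e1 : (∑ i, h i) ^ 2 = ∑ i, ∑ s, h i * h (i + s) := by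
    rw [pow_two, Finset.sum_mul]
    apply Finset.sum_congr rfl
    intro i _
    rw [Finset.mul_sum]
    exact (Equiv.sum_comp (Equiv.addLeft i) (fun x => h i * h x)).symm
  rw [e1, Finset.sum_comm, Finset.sum_eq_single 0]
  · have : ∀ j : ZMod n, h j * h (j + 0) = 1 := by
      intro j
      rw [add_zero]
      rcases h1 j with h | h <;> rw [h] <;> norm_num
    rw [Finset.sum_congr rfl (fun j _ => this j)]
    simp [ZMod.card]
  · intro s _ hs
    exact h2 s hs
  · intro h
    exact absurd (Finset.mem_univ _) h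

end Vale.Agent.P033.H25
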