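import Mathlib
import Vale.Agent.Lib.P033.Ring

namespace Vale.Agent.P033.H25

open Finset

/-- away from one residue class modulo `q` the function `f` is invariant under the shift by
`m / q` -/
theorem shift_eq (M' q : ℕ) (hq : q.Prime) (M m : ℕ) (hM : M = q * M') (hm : m = q * M)
    [NeZero m] (f : ZMod m → ℤ) (c : ZMod m) (w : ℤ) (hw : w ≠ 0) (B : ℕ)
    (hB : ∀ j, |f j| ≤ (B : ℤ))
    (hconv : ∀ k : ZMod m, ∑ j, f j * f (k - j) = if k = c then w ^ 2 else 0)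
    (j : ZMod m)
    (hj : ((2 * (j.val : ℤ) - (c.val : ℤ) : ℤ) : ZMod q) ≠ 0) :
    f (j + (M : ZMod m)) = f j := by
  classical
  have hqF : Fact q.Prime := ⟨hq⟩
  have hm0 : 0 < m := Nat.pos_of_ne_zero (NeZero.ne m)
  obtain ⟨i, hi⟩ : ∃ i : ℤ, (q : ℤ) ∣ i * (2 * (j.val : ℤ) - (c.val : ℤ)) - 1 := by
    refine ⟨(((2 * (j.val : ℤ) - (c.val : ℤ) : ℤ) : ZMod q)⁻¹.val : ℤ), ?_⟩
    rw [← ZMod.intCast_zmod_eq_zero_iff_dvd]
    rw [Int.cast_sub, Int.cast_mul, Int.cast_natCast, ZMod.natCast_zmod_val, inv_mul_cancel₀ hj]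
    simp
  obtain ⟨l, hl⟩ := hi
  have hcop : IsCoprime (1 + i * (2 * (M : ℤ))) ((2 * m : ℕ) : ℤ) := by
    have c1 : IsCoprime (1 + i * (2 * (M : ℤ))) (2 * (M : ℤ)) :=
      (isCoprime_one_left (x := 2 * (M : ℤ))).add_mul_right_left i
    have c2 : IsCoprime (1 + i * (2 * (M : ℤ))) (q : ℤ) := by
      have := (isCoprime_one_left (x := (q : ℤ))).add_mul_right_left (i * (2 * (M' : ℤ)))
      have e : (1 : ℤ) + i * (2 * (M' : ℤ)) * (q : ℤ) = 1 + i * (2 * (M : ℤ)) := by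
        rw [hM]; push_cast; ring
      rwa [e] at this
    have c3 := c1.mul_right c2
    have e : 2 * (M : ℤ) * (q : ℤ) = ((2 * m : ℕ) : ℤ) := by
      rw [hm]; push_cast; ring
    rwa [e] at c3
  obtain ⟨p, hpN, hpp, hpa⟩ := Nat.forall_exists_prime_gt_and_zmodEq
    (2 * B + w.natAbs + m + 2) (q := 2 * m) (a := 1 + i * (2 * (M : ℤ)))
    (by omega) hcop
  obtain ⟨v, hv⟩ := hpa.symm.dvd
  -- hv : p - (1 + i * (2 M)) = 2 m * v
  have hodd : ∃ r : ℕ, p = 2 * r + 1 := by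
    rcases hpp.eq_two_or_odd' with h2 | h2
    · omega
    · obtain ⟨r, hr⟩ := h2
      exact ⟨r, hr⟩
  obtain ⟨r, hr⟩ := hodd
  have hrr : (r : ℤ) = i * M + m * v := by
    have h1 : (p : ℤ) = 2 * (r : ℤ) + 1 := by exact_mod_cast hr
    have h2 : (p : ℤ) - (1 + i * (2 * (M : ℤ))) = 2 * (m : ℤ) * v := by
      rw [hv]; push_cast; ring
    linarith
  have hpm : IsUnit (p : ZMod m) := by
    rw [ZMod.isUnit_iff_coprime]
    exact (Nat.Prime.coprime_iff_not_dvd hpp).2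
      (fun h => absurd (Nat.le_of_dvd hm0 h) (by omega))
  have hpw : ¬ (p : ℤ) ∣ w := by
    intro h
    have h1 : p ∣ w.natAbs := by
      have := Int.natAbs_dvd_natAbs.2 h
      simpa using this
    have h2 := Nat.le_of_dvd (Int.natAbs_pos.2 hw) h1
    omega
  have key := frob_modp m f c w hconv p r hpp hr hpw hpm j
  have hjv : ((j.val : ℤ) : ZMod m) = j := by simp
  have hcv : ((c.val : ℤ) : ZMod m) = c := by simp
  have hidx : (p : ZMod m) * j - (r : ZMod m) * c = j + (M : ZMod m) := by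
    have e1 : (p : ZMod m) * j - (r : ZMod m) * c =
        (((2 * (r : ℤ) + 1) * (j.val : ℤ) - (r : ℤ) * (c.val : ℤ) : ℤ) : ZMod m) := by
      push_cast
      have : (p : ZMod m) = 2 * (r : ZMod m) + 1 := by rw [hr]; push_cast; ring
      rw [this]
      simp
    have e2 : (2 * (r : ℤ) + 1) * (j.val : ℤ) - (r : ℤ) * (c.val : ℤ) =
        (j.val : ℤ) + (M : ℤ) + (m : ℤ) * (l + v * (2 * (j.val : ℤ) - (c.val : ℤ))) := by
      have e3 : (m : ℤ) = q * M := by rw [hm]; push_cast; ring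
      have e4 : i * (2 * (j.val : ℤ) - (c.val : ℤ)) = 1 + q * l := by linarith
      calc (2 * (r : ℤ) + 1) * (j.val : ℤ) - (r : ℤ) * (c.val : ℤ)
          = (j.val : ℤ) + (r : ℤ) * (2 * (j.val : ℤ) - (c.val : ℤ)) := by ring
        _ = (j.val : ℤ) + (M : ℤ) * (i * (2 * (j.val : ℤ) - (c.val : ℤ))) +
              (m : ℤ) * v * (2 * (j.val : ℤ) - (c.val : ℤ)) := by rw [hrr]; ring
        _ = (j.val : ℤ) + (M : ℤ) * (1 + q * l) +
              (m : ℤ) * v * (2 * (j.val : ℤ) - (c.val : ℤ)) := by rw [e4]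
        _ = _ := by rw [e3]; ring
    rw [e1, e2]
    push_cast
    simp
  rw [hidx] at key
  have habs : |f j - f (j + (M : ZMod m))| ≤ 2 * (B : ℤ) := by
    have h1 := hB j
    have h2 := hB (j + (M : ZMod m))
    calc |f j - f (j + (M : ZMod m))| ≤ |f j| + |f (j + (M : ZMod m))| := abs_sub _ _
      _ ≤ 2 * (B : ℤ) := by linarith
  have hzero : f j - f (j + (M : ZMod m)) = 0 := by
    apply Int.eq_zero_of_abs_lt_dvd key
    have : (2 * (B : ℤ)) < p := by exact_mod_cast (by omega : 2 * B < p)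
    exact lt_of_le_of_lt habs this
  linarith

end Vale.Agent.P033.H25
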