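import Mathlib
import Vale.Agent.Lib.P033.Ring

namespace Vale.Agent.P033.H25

open Finset

/-- away from two residue classes modulo `q ^ B` the function `f` is invariant under the shift by
`m / q`, `m = q ^ B * mx` -/
theorem shift_pow (q : ℕ) (hq : q.Prime) (B mx M m : ℕ) (hB1 : 1 ≤ B)
    (hM : M = q ^ (B - 1) * mx) (hm : m = q * M)
    [NeZero m] (f : ZMod m → ℤ) (c : ZMod m) (w : ℤ) (hw : w ≠ 0) (D : ℕ)
    (hD : ∀ j, |f j| ≤ (D : ℤ))
    (hconv : ∀ k : ZMod m, ∑ j, f j * f (k - j) = if k = c then w ^ 2 else 0)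
    (j : ZMod m)
    (hj : ¬ ((q : ℤ) ^ B ∣ 2 * (j.val : ℤ) - (c.val : ℤ)))
    (hj2 : ¬ ((q : ℤ) ^ B ∣ 2 * (j.val : ℤ) - (c.val : ℤ) + 2 * (M : ℤ))) :
    f (j + (M : ZMod m)) = f j := by
  classical
  have hqF : Fact q.Prime := ⟨hq⟩
  have hm0 : 0 < m := Nat.pos_of_ne_zero (NeZero.ne m)
  obtain ⟨U, hU⟩ : ∃ U : ℤ, U = 2 * (j.val : ℤ) - (c.val : ℤ) := ⟨_, rfl⟩
  rw [← hU] at hj hj2
  have hU0 : U ≠ 0 := by
    intro h0
    rw [h0] at hj
    exact hj (dvd_zero _)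
  obtain ⟨e, U', hU', hUe⟩ : ∃ (e : ℕ) (U' : ℤ), ¬ (q : ℤ) ∣ U' ∧ U = (q : ℤ) ^ e * U' := by
    have hfin : FiniteMultiplicity (q : ℤ) U := by
      apply Int.finiteMultiplicity_iff.2
      refine ⟨?_, hU0⟩
      simp only [Int.natAbs_natCast]
      exact hq.one_lt.ne'
    obtain ⟨U', h1, h2⟩ := hfin.exists_eq_pow_mul_and_not_dvd
    exact ⟨_, U', h2, h1⟩
  have heB : e + 1 ≤ B := by
    by_contra hcon
    have : B ≤ e := by omega
    apply hj
    rw [hUe]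
    exact Dvd.dvd.mul_right (pow_dvd_pow _ this) _
  obtain ⟨g, hg⟩ : ∃ g : ℕ, B = e + 1 + g := ⟨B - (e + 1), by omega⟩
  have hMe : (M : ℤ) = (q : ℤ) ^ g * (q : ℤ) ^ e * mx := by
    rw [hM, hg]
    have : e + 1 + g - 1 = g + e := by omega
    rw [this]
    push_cast
    ring
  have hu' : ((U' : ℤ) : ZMod q) ≠ 0 := by
    intro h0
    exact hU' ((ZMod.intCast_zmod_eq_zero_iff_dvd U' q).1 h0)
  obtain ⟨z, hz⟩ : ∃ z : ℤ, (q : ℤ) ∣ z * U' - 1 := by
    refine ⟨((((U' : ℤ) : ZMod q)⁻¹).val : ℤ), ?_⟩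
    rw [← ZMod.intCast_zmod_eq_zero_iff_dvd]
    rw [Int.cast_sub, Int.cast_mul, Int.cast_natCast, ZMod.natCast_zmod_val, inv_mul_cancel₀ hu']
    simp
  obtain ⟨l, hl⟩ := hz
  obtain ⟨R, hR⟩ : ∃ R : ℤ, R = (q : ℤ) ^ g * mx * z := ⟨_, rfl⟩
  have hRU : R * U = M * (1 + q * l) := by
    have h1 : z * U' = 1 + q * l := by linarith
    calc R * U = ((q : ℤ) ^ g * (q : ℤ) ^ e * mx) * (z * U') := by rw [hR, hUe]; ring
      _ = M * (1 + q * l) := by rw [h1, hMe]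
  have hcq : IsCoprime (1 + 2 * R) (q : ℤ) := by
    have hqp : Prime (q : ℤ) := Nat.prime_iff_prime_int.1 hq
    rw [isCoprime_comm]
    apply (Prime.coprime_iff_not_dvd hqp).2
    intro hdvd
    apply hj2
    -- (1 + 2R) U = U + 2 M + 2 M q l
    have h1 : U + 2 * (M : ℤ) = (1 + 2 * R) * U - 2 * (M * q) * l := by
      have : (1 + 2 * R) * U = U + 2 * (R * U) := by ring
      rw [this, hRU]; ring
    rw [h1]
    apply dvd_sub
    · by_cases hg0 : g = 0
      · have hB' : (q : ℤ) ^ B = (q : ℤ) * (q : ℤ) ^ e := by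
          rw [hg, hg0]; ring
        rw [hB']
        apply mul_dvd_mul hdvd
        rw [hUe]
        exact Dvd.intro _ rfl
      · exfalso
        have h2 : (q : ℤ) ∣ 2 * R := by
          rw [hR]
          obtain ⟨g', hg'⟩ : ∃ g', g = g' + 1 := ⟨g - 1, by omega⟩
          rw [hg', pow_succ]
          exact ⟨2 * ((q : ℤ) ^ g' * mx * z), by ring⟩
        have h3 : (q : ℤ) ∣ 1 := by
          have := dvd_sub hdvd h2
          simpa using this
        have h4 : q ∣ 1 := by exact_mod_cast h3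
        exact hq.one_lt.ne' (Nat.dvd_one.1 h4)
    · have h2 : (q : ℤ) ^ B ∣ M * q := by
        refine ⟨mx, ?_⟩
        rw [hMe, hg]; ring
      exact Dvd.dvd.mul_right (Dvd.dvd.mul_left h2 2) l
  have hcop : IsCoprime (1 + 2 * R) ((2 * m : ℕ) : ℤ) := by
    have c1 : IsCoprime (1 + 2 * R) (2 * (mx : ℤ)) := by
      have := (isCoprime_one_left (x := 2 * (mx : ℤ))).add_mul_right_left ((q : ℤ) ^ g * z)
      have e1 : (1 : ℤ) + (q : ℤ) ^ g * z * (2 * (mx : ℤ)) = 1 + 2 * R := by rw [hR]; ring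
      rwa [e1] at this
    have c2 : IsCoprime (1 + 2 * R) ((q : ℤ) ^ B) := hcq.pow_right
    have c3 := c1.mul_right c2
    have e1 : 2 * (mx : ℤ) * (q : ℤ) ^ B = ((2 * m : ℕ) : ℤ) := by
      rw [hm]; push_cast; rw [hMe, hg]; ring
    rwa [e1] at c3
  obtain ⟨p, hpN, hpp, hpa⟩ := Nat.forall_exists_prime_gt_and_zmodEq
    (2 * D + w.natAbs + m + 2) (q := 2 * m) (a := 1 + 2 * R)
    (by omega) hcop
  obtain ⟨v, hv⟩ := hpa.symm.dvd
  have hodd : ∃ r : ℕ, p = 2 * r + 1 := by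
    rcases hpp.eq_two_or_odd' with h2 | h2
    · omega
    · obtain ⟨r, hr⟩ := h2
      exact ⟨r, hr⟩
  obtain ⟨r, hr⟩ := hodd
  have hrr : (r : ℤ) = R + m * v := by
    have h1 : (p : ℤ) = 2 * (r : ℤ) + 1 := by exact_mod_cast hr
    have h2 : (p : ℤ) - (1 + 2 * R) = 2 * (m : ℤ) * v := by
      rw [hv]; push_cast; ring
    linarith
  have hpm : IsUnit (p : ZMod m) := by
    rw [ZMod.isUnit_iff_coprime]
    exact (Nat.Prime.coprime_iff_not_dvd hpp).2
      (fun h => absurd (Nat.le_of_dvd hm0 h) (by omega))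
  have hpw : ¬ (p : ℤ) ∣ w := by
    intro h
    have h1 : p ∣ w.natAbs := by
      have := Int.natAbs_dvd_natAbs.2 h
      simpa using this
    have h2 := Nat.le_of_dvd (Int.natAbs_pos.2 hw) h1
    omega
  have key := frob_modp m f c w hconv p r hpp hr hpw hpm j
  have hidx : (p : ZMod m) * j - (r : ZMod m) * c = j + (M : ZMod m) := by
    have e1 : (p : ZMod m) * j - (r : ZMod m) * c =
        (((2 * (r : ℤ) + 1) * (j.val : ℤ) - (r : ℤ) * (c.val : ℤ) : ℤ) : ZMod m) := by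
      push_cast
      have : (p : ZMod m) = 2 * (r : ZMod m) + 1 := by rw [hr]; push_cast; ring
      rw [this]
      simp
    have e2 : (2 * (r : ℤ) + 1) * (j.val : ℤ) - (r : ℤ) * (c.val : ℤ) =
        (j.val : ℤ) + (M : ℤ) + (m : ℤ) * (l + v * U) := by
      have e3 : (m : ℤ) = q * M := by rw [hm]; push_cast; ring
      calc (2 * (r : ℤ) + 1) * (j.val : ℤ) - (r : ℤ) * (c.val : ℤ)
          = (j.val : ℤ) + (r : ℤ) * U := by rw [hU]; ring
        _ = (j.val : ℤ) + R * U + (m : ℤ) * v * U := by rw [hrr]; ring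
        _ = (j.val : ℤ) + M * (1 + q * l) + (m : ℤ) * v * U := by rw [hRU]
        _ = _ := by rw [e3]; ring
    rw [e1, e2]
    push_cast
    simp
  rw [hidx] at key
  have habs : |f j - f (j + (M : ZMod m))| ≤ 2 * (D : ℤ) := by
    have h1 := hD j
    have h2 := hD (j + (M : ZMod m))
    calc |f j - f (j + (M : ZMod m))| ≤ |f j| + |f (j + (M : ZMod m))| := abs_sub _ _
      _ ≤ 2 * (D : ℤ) := by linarith
  have hzero : f j - f (j + (M : ZMod m)) = 0 := by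
    apply Int.eq_zero_of_abs_lt_dvd key
    have : (2 * (D : ℤ)) < p := by exact_mod_cast (by omega : 2 * D < p)
    exact lt_of_le_of_lt habs this
  linarith

end Vale.Agent.P033.H25
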