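import Mathlib
import Vale.Agent.Lib.P033.Fold
import Vale.Agent.Lib.P033.ShiftPow

/-!
P033, the circulant Hadamard conjecture: affine symmetries of the first row.
-/

namespace Vale.Agent.P033.H25

open Finset

theorem iterate_inv (n : ℕ) [NeZero n] (h : ZMod n → ℤ) (t c : ZMod n)
    (hinv : ∀ j, h (t * j + c) = h j) (k : ℕ) :
    ∃ c' : ZMod n, ∀ j, h (t ^ k * j + c') = h j := by
  induction k with
  | zero => exact ⟨0, fun j => by rw [pow_zero, one_mul, add_zero]⟩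
  | succ k ih =>
    obtain ⟨c', hc'⟩ := ih
    refine ⟨t * c' + c, fun j => ?_⟩
    have e : t ^ (k + 1) * j + (t * c' + c) = t * (t ^ k * j + c') + c := by ring
    rw [e, hinv, hc']

theorem cond_iff (q m : ℕ) [Fact q.Prime] (hqM : q ∣ m) (hq2 : ((2 : ℤ) : ZMod q) ≠ 0)
    (j : ZMod m) [NeZero m] (C : ℤ) :
    ((2 * (j.val : ℤ) - C : ℤ) : ZMod q) = 0 ↔
      ZMod.castHom hqM (ZMod q) j = ((2 : ℤ) : ZMod q)⁻¹ * (C : ZMod q) := by
  have e1 : ZMod.castHom hqM (ZMod q) j = ((j.val : ℤ) : ZMod q) := by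
    conv_lhs => rw [← ZMod.natCast_zmod_val j]
    rw [map_natCast]
    push_cast
    rfl
  rw [e1, Int.cast_sub, Int.cast_mul]
  constructor
  · intro h3
    rw [← sub_eq_zero.1 h3, inv_mul_cancel_left₀ hq2]
  · intro h3
    rw [h3, mul_inv_cancel_left₀ hq2, sub_self]

theorem main (n : ℕ) [NeZero n] (h : ZMod n → ℤ) (h1 : ∀ i, h i = 1 ∨ h i = -1)
    (h2 : ∀ s : ZMod n, s ≠ 0 → ∑ j, h j * h (j + s) = 0)
    (q B mx M m d : ℕ) (hq : q.Prime) (hq3 : 3 ≤ q) (hB1 : 1 ≤ B) (hM : M = q ^ (B - 1) * mx)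
    (hm : m = q * M) (hnd : n = m * d)
    (hdq : 4 * d < q ^ B) (t c : ZMod n) (ht : IsUnit t)
    (ht1 : ZMod.castHom (⟨d, hnd⟩ : m ∣ n) (ZMod m) t = -1)
    (hinv : ∀ j, h (t * j + c) = h j) : False := by
  classical
  have hn0 : 0 < n := Nat.pos_of_ne_zero (NeZero.ne n)
  have hm0 : 0 < m := by
    rcases Nat.eq_zero_or_pos m with h0 | h0
    · rw [h0, zero_mul] at hnd; omega
    · exact h0
  have hmz : NeZero m := ⟨hm0.ne'⟩
  have hd0 : 0 < d := by
    rcases Nat.eq_zero_or_pos d with h0 | h0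
    · rw [h0, mul_zero] at hnd; omega
    · exact h0
  have hM0 : 0 < M := by
    rcases Nat.eq_zero_or_pos M with h0 | h0
    · rw [h0, mul_zero] at hm; omega
    · exact h0
  have hqM : q ∣ m := ⟨M, hm⟩
  have hqz : NeZero q := ⟨hq.ne_zero⟩
  have hqF : Fact q.Prime := ⟨hq⟩
  set hmn : m ∣ n := ⟨d, hnd⟩ with hmn_def
  obtain ⟨f, hf⟩ : ∃ f : ZMod m → ℤ, f = fold n m hmn h := ⟨_, rfl⟩
  obtain ⟨c', hc'⟩ : ∃ c' : ZMod m, c' = ZMod.castHom hmn (ZMod m) c := ⟨_, rfl⟩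
  have hauto : ∀ s : ZMod m, ∑ x, f x * f (x + s) = if s = 0 then (n : ℤ) else 0 := by
    intro s
    rw [hf]
    exact fold_auto n m hmn h h1 h2 s
  have hrefl : ∀ x : ZMod m, f (c' - x) = f x := by
    intro x
    rw [hf, hc']
    exact fold_refl n m hmn h t c ht ht1 hinv x
  have habs : ∀ x : ZMod m, |f x| ≤ (d : ℤ) := by
    intro x
    have h3 := fold_abs n m hmn h h1 x
    rw [← hf] at h3
    have h4 : (n : ℤ) = (d : ℤ) * (m : ℤ) := by rw [hnd]; push_cast; ring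
    rw [h4] at h3
    exact le_of_mul_le_mul_right h3 (by exact_mod_cast hm0)
  obtain ⟨w, hw⟩ : ∃ w : ℤ, w ^ 2 = (n : ℤ) := ⟨_, sum_sq n h h1 h2⟩
  have hw0 : w ≠ 0 := by
    intro h0
    rw [h0] at hw
    have : (0 : ℤ) < n := by exact_mod_cast hn0
    rw [← hw] at this
    norm_num at this
  have hconv : ∀ k : ZMod m, ∑ j, f j * f (k - j) = if k = c' then w ^ 2 else 0 := by
    intro k
    have e1 : ∀ j : ZMod m, f j * f (k - j) = f j * f (j + (c' - k)) := by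
      intro j
      rw [← hrefl (k - j)]
      congr 2
      abel
    rw [Finset.sum_congr rfl (fun j _ => e1 j), hauto, hw]
    by_cases hk : k = c'
    · rw [if_pos hk, if_pos (by rw [hk, sub_self])]
    · rw [if_neg hk, if_neg (fun h0 => hk (sub_eq_zero.1 h0).symm)]
  have hmB : m = q ^ B * mx := by
    rw [hm, hM]
    obtain ⟨b, rfl⟩ : ∃ b, B = b + 1 := ⟨B - 1, by omega⟩
    rw [Nat.add_sub_cancel]
    ring
  have hQm : q ^ B ∣ m := ⟨mx, hmB⟩
  have hQz : NeZero (q ^ B) := ⟨(pow_pos hq.pos B).ne'⟩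
  have hcast : ∀ j : ZMod m, ZMod.castHom hQm (ZMod (q ^ B)) j = ((j.val : ℤ) : ZMod (q ^ B)) := by
    intro j
    conv_lhs => rw [← ZMod.natCast_zmod_val j]
    rw [map_natCast]
    push_cast
    rfl
  have hcop2 : Nat.Coprime 2 (q ^ B) := by
    apply Nat.Coprime.pow_right
    exact (Nat.coprime_primes Nat.prime_two hq).2 (by omega)
  obtain ⟨i2, hi2⟩ : ∃ i2 : ZMod (q ^ B), i2 * 2 = 1 := by
    have hu : IsUnit ((2 : ℕ) : ZMod (q ^ B)) := (ZMod.isUnit_iff_coprime 2 (q ^ B)).2 hcop2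
    obtain ⟨u, hu⟩ := hu
    refine ⟨(u⁻¹ : (ZMod (q ^ B))ˣ), ?_⟩
    have : (2 : ZMod (q ^ B)) = (u : ZMod (q ^ B)) := by rw [hu]; norm_num
    rw [this]
    exact Units.inv_mul u
  have hsol : ∀ (j : ZMod m) (C : ℤ), (q : ℤ) ^ B ∣ 2 * (j.val : ℤ) - C →
      ZMod.castHom hQm (ZMod (q ^ B)) j = i2 * (C : ZMod (q ^ B)) := by
    intro j C hdv
    have h3 : ((2 * (j.val : ℤ) - C : ℤ) : ZMod (q ^ B)) = 0 := by
      rw [ZMod.intCast_zmod_eq_zero_iff_dvd]
      push_cast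
      exact hdv
    rw [Int.cast_sub, Int.cast_mul] at h3
    have h4 := sub_eq_zero.1 h3
    rw [hcast, ← h4, ← mul_assoc]
    push_cast
    rw [hi2, one_mul]
  have hcount : ∀ x : ZMod (q ^ B),
      ((univ.filter (fun j : ZMod m => ZMod.castHom hQm (ZMod (q ^ B)) j = x)).card : ℤ) *
        (q : ℤ) ^ B = (m : ℤ) := by
    intro x
    exact_mod_cast fiber_card m (q ^ B) hQm x
  -- the energy estimate
  have hMne : (M : ZMod m) ≠ 0 := by
    intro h0
    have h3 := (ZMod.natCast_eq_zero_iff M m).1 h0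
    have h4 := Nat.le_of_dvd hM0 h3
    have h5 : 2 ≤ q := hq.two_le
    rw [hm] at h4
    nlinarith
  have hen := hauto 0
  rw [if_pos rfl] at hen
  simp only [add_zero] at hen
  have haM := hauto (M : ZMod m)
  rw [if_neg hMne] at haM
  have hen2 : ∑ x : ZMod m, f (x + (M : ZMod m)) * f (x + (M : ZMod m)) = (n : ℤ) := by
    rw [← hen]
    exact Equiv.sum_comp (Equiv.addRight (M : ZMod m)) (fun x => f x * f x)
  have hD2 : ∑ x : ZMod m, (f x - f (x + (M : ZMod m))) ^ 2 = 2 * (n : ℤ) := by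
    have e1 : ∀ x : ZMod m, (f x - f (x + (M : ZMod m))) ^ 2 =
        f x * f x + f (x + (M : ZMod m)) * f (x + (M : ZMod m)) -
          2 * (f x * f (x + (M : ZMod m))) := fun x => by ring
    rw [Finset.sum_congr rfl (fun x _ => e1 x), Finset.sum_sub_distrib, Finset.sum_add_distrib,
      ← Finset.mul_sum, hen, hen2, haM]
    ring
  obtain ⟨x1, hx1⟩ : ∃ x1 : ZMod (q ^ B), x1 = i2 * ((c'.val : ℤ) : ZMod (q ^ B)) := ⟨_, rfl⟩
  obtain ⟨x2, hx2⟩ : ∃ x2 : ZMod (q ^ B),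
      x2 = i2 * (((c'.val : ℤ) - 2 * (M : ℤ) : ℤ) : ZMod (q ^ B)) := ⟨_, rfl⟩
  have hpt : ∀ j : ZMod m, (f j - f (j + (M : ZMod m))) ^ 2 ≤
      (if ZMod.castHom hQm (ZMod (q ^ B)) j = x1 then 4 * (d : ℤ) ^ 2 else 0) +
      (if ZMod.castHom hQm (ZMod (q ^ B)) j = x2 then 4 * (d : ℤ) ^ 2 else 0) := by
    intro j
    have b1 := habs j
    have b2 := habs (j + (M : ZMod m))
    have b3 : |f j - f (j + (M : ZMod m))| ≤ 2 * (d : ℤ) :=
      (abs_sub _ _).trans (by linarith)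
    have b4 : (f j - f (j + (M : ZMod m))) ^ 2 ≤ 4 * (d : ℤ) ^ 2 := by
      have := pow_le_pow_left₀ (abs_nonneg _) b3 2
      rw [sq_abs] at this
      linarith [this, (by ring : (2 * (d : ℤ)) ^ 2 = 4 * (d : ℤ) ^ 2)]
    have b5 : (0 : ℤ) ≤ 4 * (d : ℤ) ^ 2 := by positivity
    by_cases hj : (q : ℤ) ^ B ∣ 2 * (j.val : ℤ) - (c'.val : ℤ)
    · rw [if_pos (by rw [hx1]; exact hsol j _ hj)]
      split_ifs <;> linarith
    · by_cases hj2 : (q : ℤ) ^ B ∣ 2 * (j.val : ℤ) - (c'.val : ℤ) + 2 * (M : ℤ)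
      · rw [if_pos (show ZMod.castHom hQm (ZMod (q ^ B)) j = x2 by
          rw [hx2]
          apply hsol j _
          have e1 : 2 * (j.val : ℤ) - ((c'.val : ℤ) - 2 * (M : ℤ)) =
            2 * (j.val : ℤ) - (c'.val : ℤ) + 2 * (M : ℤ) := by ring
          rw [e1]
          exact hj2)]
        split_ifs <;> linarith
      · have h5 := shift_pow q hq B mx M m hB1 hM hm f c' w hw0 d habs hconv j hj hj2
        rw [h5, sub_self]
        have : (0 : ℤ) ^ 2 = 0 := by norm_num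
        rw [this]
        split_ifs <;> linarith
  have hsum := Finset.sum_le_sum (fun j (_ : j ∈ (univ : Finset (ZMod m))) => hpt j)
  rw [hD2, Finset.sum_add_distrib, ← Finset.sum_filter, ← Finset.sum_filter, Finset.sum_const,
    Finset.sum_const, nsmul_eq_mul, nsmul_eq_mul] at hsum
  have k1 := hcount x1
  have k2 := hcount x2
  have hQ0 : (0 : ℤ) < (q : ℤ) ^ B := by
    have : (0 : ℤ) < q := by exact_mod_cast hq.pos
    positivity
  have hd1 : (0 : ℤ) < d := by exact_mod_cast hd0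
  have hm1 : (0 : ℤ) < m := by exact_mod_cast hm0
  have hdq' : 4 * (d : ℤ) < (q : ℤ) ^ B := by exact_mod_cast hdq
  have hnm : (n : ℤ) = m * d := by rw [hnd]; push_cast; ring
  have hmul := mul_le_mul_of_nonneg_right hsum hQ0.le
  have e9 : ((((univ.filter (fun j : ZMod m => ZMod.castHom hQm (ZMod (q ^ B)) j = x1)).card : ℤ) *
      (4 * (d : ℤ) ^ 2) +
      ((univ.filter (fun j : ZMod m => ZMod.castHom hQm (ZMod (q ^ B)) j = x2)).card : ℤ) *
      (4 * (d : ℤ) ^ 2)) * (q : ℤ) ^ B) = 2 * ((m : ℤ) * d) * (4 * d) := by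
    have : ∀ a b Q e : ℤ, (a * e + b * e) * Q = (a * Q) * e + (b * Q) * e := by
      intros; ring
    rw [this, k1, k2]
    ring
  rw [e9, hnm] at hmul
  have hpos : 0 < 2 * ((m : ℤ) * d) := by positivity
  have := le_of_mul_le_mul_left hmul hpos
  linarith

/-- Let `h` be a sign sequence on `ZMod n` with zero periodic autocorrelations, let `d ∣ n` and
suppose that some odd prime power `q ^ b` divides `n / d` and `4 d < q ^ b`. If `t` is a unit
modulo `n` some power of which is congruent to `-1` modulo `n / d`, then for no `c` does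
`h (t j + c) = h j` hold for all `j`. -/
theorem twentyfive_main (n : ℕ) [NeZero n] (h : ZMod n → ℤ) (hs : ∀ i, h i = 1 ∨ h i = -1)
    (hp : ∀ s : ZMod n, s ≠ 0 → ∑ j, h j * h (j + s) = 0)
    (q b d : ℕ) (hq : q.Prime) (hq2 : q ≠ 2) (hd : d ∣ n) (hqb : q ^ b ∣ n / d)
    (hdq : 4 * d < q ^ b)
    (t : ℤ) (ht : IsCoprime t (n : ℤ)) (k : ℕ) (htk : ((n / d : ℕ) : ℤ) ∣ t ^ k + 1) (c : ZMod n) :
    ¬ ∀ j : ZMod n, h ((t : ZMod n) * j + c) = h j := by
  intro hinv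
  have hn0 : 0 < n := Nat.pos_of_ne_zero (NeZero.ne n)
  have hd0 : 0 < d := Nat.pos_of_dvd_of_pos hd hn0
  have hnd : n = (n / d) * d := (Nat.div_mul_cancel hd).symm
  have hq3 : 3 ≤ q := by
    have := hq.two_le
    omega
  have hb1 : 1 ≤ b := by
    rcases Nat.eq_zero_or_pos b with h0 | h0
    · rw [h0, pow_zero] at hdq
      omega
    · exact h0
  obtain ⟨mx, hmx⟩ := hqb
  have htu : IsUnit ((t : ℤ) : ZMod n) := by
    rw [ZMod.coe_int_isUnit_iff_isCoprime, isCoprime_comm]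
    exact ht
  obtain ⟨c', hc'⟩ := iterate_inv n h (t : ZMod n) c hinv k
  refine main n h hs hp q b mx (q ^ (b - 1) * mx) (n / d) d hq hq3 hb1 rfl
    ?_ hnd hdq ((t : ZMod n) ^ k) c' (htu.pow k) ?_ hc'
  · rw [hmx]
    obtain ⟨b', rfl⟩ : ∃ b', b = b' + 1 := ⟨b - 1, by omega⟩
    rw [Nat.add_sub_cancel]
    ring
  · rw [map_pow, map_intCast]
    have h3 : (((t ^ k + 1 : ℤ)) : ZMod (n / d)) = 0 :=
      (ZMod.intCast_zmod_eq_zero_iff_dvd _ _).2 htk
    push_cast at h3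
    exact eq_neg_of_add_eq_zero_left h3

end Vale.Agent.P033.H25
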