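import Mathlib

/-!
# P033: circulant Hadamard matrices, reflection products and product rows
-/

namespace Vale.Agent.P033

open Finset

/-- the circulant matrix with first row `h`: `H i j = h (j - i)` -/
def circ {n : ℕ} (h : ZMod n → ℤ) : Matrix (ZMod n) (ZMod n) ℤ := fun i j => h (j - i)

/-- `h` is the first row of a real circulant Hadamard matrix of order `n` -/
def IsCircHadamard (n : ℕ) [NeZero n] (h : ZMod n → ℤ) : Prop :=
  (∀ i, h i = 1 ∨ h i = -1) ∧
    circ h * (circ h).transpose = (n : ℤ) • (1 : Matrix (ZMod n) (ZMod n) ℤ)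

theorem paf {n : ℕ} [NeZero n] {h : ZMod n → ℤ} (hh : IsCircHadamard n h) (t : ZMod n)
    (ht : t ≠ 0) : ∑ i, h i * h (i + t) = 0 := by
  have h1 := congrFun (congrFun hh.2 0) (-t)
  rw [Matrix.mul_apply] at h1
  have h2 : (0 : ZMod n) ≠ -t := fun e => ht (neg_eq_zero.mp e.symm)
  simpa [circ, Matrix.transpose_apply, Matrix.smul_apply, Matrix.one_apply, h2, ht] using h1

/-- sum over `ZMod n` as a sum over a range -/
theorem sum_zmod {n : ℕ} [NeZero n] (g : ZMod n → ℤ) :
    ∑ i, g i = ∑ j ∈ range n, g (j : ZMod n) := by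
  refine Finset.sum_nbij' (fun i : ZMod n => i.val) (fun j : ℕ => (j : ZMod n)) ?_ ?_ ?_ ?_ ?_
  · intro i _; simpa using ZMod.val_lt i
  · intro j _; simp
  · intro i _; simp
  · intro j hj
    exact ZMod.val_natCast_of_lt (by simpa using hj)
  · intro i _; simp

theorem sum_blocks (G : ℕ → ℤ) (p e : ℕ) :
    ∑ k ∈ range (p * e), G k = ∑ j ∈ range e, ∑ i ∈ range p, G (p * j + i) := by
  induction e with
  | zero => simp
  | succ e ih => rw [Nat.mul_succ, Finset.sum_range_add, ih, Finset.sum_range_succ]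

theorem sum_zmod_blocks {n m L : ℕ} [NeZero n] (hn : n = m * L) (g : ZMod n → ℤ) :
    ∑ i, g i = ∑ j ∈ range L, ∑ i ∈ range m, g ((m * j + i : ℕ) : ZMod n) := by
  have h := sum_blocks (fun k : ℕ => g (k : ZMod n)) m L
  rw [← hn] at h
  rw [sum_zmod, h]

theorem sum_periodic (G : ℕ → ℤ) (p e : ℕ) (hG : ∀ k, G (k + p) = G k) :
    ∑ k ∈ range (p * e), G k = e * ∑ i ∈ range p, G i := by
  rw [sum_blocks]
  have h1 : ∀ j i, G (p * j + i) = G i := by
    intro j
    induction j with
    | zero => intro i; simp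
    | succ j ih =>
      intro i
      rw [Nat.mul_succ, add_right_comm, hG, ih]
  simp [h1]

/-- the sign character of `ZMod 2` -/
def sg (x : ZMod 2) : ℤ := if x = 0 then 1 else -1

theorem sg_add (x y : ZMod 2) : sg (x + y) = sg x * sg y := by
  revert x y; decide

theorem sg_sq (x : ZMod 2) : sg x = 1 ∨ sg x = -1 := by
  revert x; decide

section

set_option linter.unusedSectionVars false

variable {n : ℕ} [NeZero n]

/-- the bit of a sign -/
def bit (h : ZMod n → ℤ) (i : ZMod n) : ℤ := if h i = 1 then 0 else 1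

theorem h_eq {h : ZMod n → ℤ} (hs : ∀ i, h i = 1 ∨ h i = -1) (i : ZMod n) :
    h i = 1 - 2 * bit h i := by
  unfold bit
  rcases hs i with e | e <;> simp [e]

theorem h_sg {h : ZMod n → ℤ} (hs : ∀ i, h i = 1 ∨ h i = -1) (i : ZMod n) :
    h i = sg ((bit h i : ℤ) : ZMod 2) := by
  unfold bit sg
  rcases hs i with e | e <;> simp [e]

theorem bit_sq (h : ZMod n → ℤ) (i : ZMod n) : bit h i * bit h i = bit h i := by
  unfold bit
  split_ifs <;> simp

/-- autocorrelation of the bits -/
theorem bit_corr {w : ℕ} (hn : n = 4 * w) {h : ZMod n → ℤ} (hs : ∀ i, h i = 1 ∨ h i = -1)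
    (hp : ∀ t : ZMod n, t ≠ 0 → ∑ i, h i * h (i + t) = 0) (t : ZMod n) (ht : t ≠ 0) :
    ∑ i, bit h i * bit h (i + t) = ∑ i, bit h i - w := by
  have h0 := hp t ht
  have h1 : ∀ i, h i * h (i + t)
      = 1 - 2 * bit h i - 2 * bit h (i + t) + 4 * (bit h i * bit h (i + t)) := fun i => by
    rw [h_eq hs i, h_eq hs (i + t)]; ring
  have h2 : ∑ i : ZMod n, bit h (i + t) = ∑ i, bit h i :=
    Fintype.sum_equiv (Equiv.addRight t) _ _ (fun i => rfl)
  simp_rw [h1] at h0
  rw [Finset.sum_add_distrib, Finset.sum_sub_distrib, Finset.sum_sub_distrib, ← Finset.mul_sum,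
    ← Finset.mul_sum, ← Finset.mul_sum, h2] at h0
  have h3 : ∑ _i : ZMod n, (1 : ℤ) = 4 * w := by
    simp [ZMod.card, hn]
  rw [h3] at h0
  linarith

/-- bits modulo 2 -/
def B (h : ZMod n → ℤ) (i : ZMod n) : ZMod 2 := ((bit h i : ℤ) : ZMod 2)

theorem B_sq (x : ZMod 2) : x * x = x := by revert x; decide

theorem two_torsion (x : ZMod 2) : x + x = 0 := by revert x; decide

theorem B_corr {w : ℕ} (hn : n = 4 * w) (hw : Odd w) {h : ZMod n → ℤ}
    (hs : ∀ i, h i = 1 ∨ h i = -1)
    (hp : ∀ t : ZMod n, t ≠ 0 → ∑ i, h i * h (i + t) = 0) :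
    ∃ l : ZMod 2, ∀ t : ZMod n, ∑ i, B h i * B h (i + t) = l + (if t = 0 then 1 else 0) := by
  refine ⟨((∑ i, bit h i - w : ℤ) : ZMod 2), fun t => ?_⟩
  have hcast : ∑ i, B h i * B h (i + t) = ((∑ i, bit h i * bit h (i + t) : ℤ) : ZMod 2) := by
    simp [B]
  rw [hcast]
  by_cases ht : t = 0
  · subst ht
    have hw1 : ((w : ℕ) : ZMod 2) = 1 := (ZMod.natCast_eq_one_iff_odd).mpr hw
    simp only [add_zero, bit_sq, if_true]
    push_cast
    rw [hw1]
    ring
  · rw [bit_corr hn hs hp t ht]
    simp [ht]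

/-- Frobenius: the convolution square modulo 2 -/
theorem conv_sq (A : ZMod n → ZMod 2) (k : ZMod n) :
    ∑ i, A i * A (k - i) = ∑ i with i + i = k, A i := by
  rw [← Finset.sum_filter_add_sum_filter_not univ (fun i : ZMod n => i + i = k)]
  have h1 : ∑ i with i + i = k, A i * A (k - i) = ∑ i with i + i = k, A i := by
    refine Finset.sum_congr rfl fun i hi => ?_
    have : k - i = i := by
      rw [← (Finset.mem_filter.mp hi).2]; ring
    rw [this, B_sq]
  have h2 : ∑ i with ¬ i + i = k, A i * A (k - i) = 0 := by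
    refine Finset.sum_involution (fun i _ => k - i) ?_ ?_ ?_ ?_
    · intro i _
      have : k - (k - i) = i := by ring
      rw [this, mul_comm (A (k - i)) (A i)]
      exact two_torsion _
    · intro i hi _ he
      exact (Finset.mem_filter.mp hi).2 (by linear_combination -he)
    · intro i hi
      refine Finset.mem_filter.mpr ⟨Finset.mem_univ _, fun he => ?_⟩
      exact (Finset.mem_filter.mp hi).2 (by linear_combination -he)
    · intro i _
      ring
  rw [h1, h2, add_zero]

/-- the function `T` -/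
def T (h : ZMod n → ℤ) (c k : ZMod n) : ZMod 2 :=
  (∑ i with i + i = k, B h i) + (if k = c then 1 else 0)

theorem T_eq {w : ℕ} (hn : n = 4 * w) (hw : Odd w) {h : ZMod n → ℤ}
    (hs : ∀ i, h i = 1 ∨ h i = -1)
    (hp : ∀ t : ZMod n, t ≠ 0 → ∑ i, h i * h (i + t) = 0) (c : ZMod n) :
    ∃ l : ZMod 2, ∀ k, T h c k = l + ∑ i, (B h (k - i) + B h (c - (k - i))) * B h i := by
  obtain ⟨l, hl⟩ := B_corr hn hw hs hp
  refine ⟨l, fun k => ?_⟩
  unfold T
  have h1 := conv_sq (B h) k
  have h2 := hl (c - k)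
  have h3 : ∑ i, (B h (k - i) + B h (c - (k - i))) * B h i
      = ∑ i, B h i * B h (k - i) + ∑ i, B h i * B h (i + (c - k)) := by
    rw [← Finset.sum_add_distrib]
    refine Finset.sum_congr rfl fun i _ => ?_
    have : c - (k - i) = i + (c - k) := by ring
    rw [this]; ring
  rw [h3, h2, h1]
  have h4 : (c - k = 0) ↔ (k = c) := by
    rw [sub_eq_zero, eq_comm]
  simp only [h4]
  have h5 := two_torsion l
  linear_combination -h5

theorem B_par {h : ZMod n → ℤ} (hs : ∀ i, h i = 1 ∨ h i = -1) (i j i' j' : ZMod n)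
    (e : h i * h j = h i' * h j') : B h i + B h j = B h i' + B h j' := by
  have key : ∀ x y : ZMod 2, sg x = sg y → x = y := by decide
  refine key _ _ ?_
  unfold B
  rw [sg_add, sg_add, ← h_sg hs, ← h_sg hs, ← h_sg hs, ← h_sg hs, e]

theorem T_per {w : ℕ} (hn : n = 4 * w) (hw : Odd w) {h : ZMod n → ℤ}
    (hs : ∀ i, h i = 1 ∨ h i = -1)
    (hp : ∀ t : ZMod n, t ≠ 0 → ∑ i, h i * h (i + t) = 0) (c d : ZMod n)
    (hper : ∀ i, h (i + d) * h (c - (i + d)) = h i * h (c - i)) (k : ZMod n) :
    T h c (k + d) = T h c k := by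
  obtain ⟨l, hl⟩ := T_eq hn hw hs hp c
  rw [hl, hl]
  congr 1
  refine Finset.sum_congr rfl fun i _ => ?_
  have e1 : k + d - i = (k - i) + d := by ring
  rw [e1, B_par hs _ _ _ _ (hper (k - i))]

theorem half {w : ℕ} (hn : n = 4 * w) (x : ZMod n) (hx : x + x = 0) :
    x = 0 ∨ x = ((2 * w : ℕ) : ZMod n) := by
  have hv : ((x.val + x.val : ℕ) : ZMod n) = 0 := by
    push_cast
    rw [ZMod.natCast_zmod_val]
    exact hx
  rw [ZMod.natCast_eq_zero_iff] at hv
  obtain ⟨q, hq⟩ := hv
  have hlt := ZMod.val_lt x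
  have hq2 : q = 0 ∨ q = 1 := by
    by_contra hcon
    have : 2 ≤ q := by omega
    nlinarith
  rcases hq2 with rfl | rfl
  · left
    have : x.val = 0 := by omega
    exact (ZMod.val_eq_zero x).mp this
  · right
    have : x.val = 2 * w := by omega
    rw [← this, ZMod.natCast_zmod_val]

theorem half_ne {w : ℕ} (hn : n = 4 * w) : ((2 * w : ℕ) : ZMod n) ≠ 0 := by
  intro h
  rw [ZMod.natCast_eq_zero_iff] at h
  have hn0 : n ≠ 0 := NeZero.ne n
  have := Nat.le_of_dvd (by omega) h
  omega

theorem half_add {w : ℕ} (hn : n = 4 * w) :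
    ((2 * w : ℕ) : ZMod n) + ((2 * w : ℕ) : ZMod n) = 0 := by
  have : ((2 * w + 2 * w : ℕ) : ZMod n) = 0 := by
    rw [ZMod.natCast_eq_zero_iff]
    exact ⟨1, by omega⟩
  exact_mod_cast this

theorem filter_double {w : ℕ} (hn : n = 4 * w) (i : ZMod n) :
    (univ.filter fun j : ZMod n => j + j = i + i) = {i, i + ((2 * w : ℕ) : ZMod n)} := by
  ext j
  simp only [Finset.mem_filter, Finset.mem_univ, true_and, Finset.mem_insert,
    Finset.mem_singleton]
  constructor
  · intro h
    have h1 : (j - i) + (j - i) = 0 := by linear_combination h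
    rcases half hn _ h1 with e | e
    · left; linear_combination e
    · right; linear_combination e
  · rintro (rfl | rfl)
    · rfl
    · have := half_add hn
      linear_combination this

theorem q_double {w : ℕ} (hn : n = 4 * w) (h : ZMod n → ℤ) (i : ZMod n) :
    ∑ j with j + j = i + i, B h j = B h i + B h (i + ((2 * w : ℕ) : ZMod n)) := by
  rw [filter_double hn, Finset.sum_pair]
  intro e
  exact half_ne hn (by linear_combination -e)

theorem main_sum {w : ℕ} (hn : n = 4 * w) {h : ZMod n → ℤ}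
    (hs : ∀ i, h i = 1 ∨ h i = -1)
    (hp : ∀ t : ZMod n, t ≠ 0 → ∑ i, h i * h (i + t) = 0) (c' : ZMod n) :
    ∑ i, sg (T h (c' + c') (i + i)) = 4 * sg (T h (c' + c') (c' + c')) := by
  have h0 := hp _ (half_ne hn)
  have h1 : ∀ i : ZMod n, h i * h (i + ((2 * w : ℕ) : ZMod n))
      = sg (T h (c' + c') (i + i))
        - 2 * (if i + i = c' + c' then sg (T h (c' + c') (c' + c')) else 0) := by
    intro i
    have e1 : h i * h (i + ((2 * w : ℕ) : ZMod n)) = sg (∑ j with j + j = i + i, B h j) := by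
      rw [q_double hn, sg_add, h_sg hs i, h_sg hs (i + _)]; rfl
    rw [e1]
    unfold T
    by_cases hi : i + i = c' + c'
    · simp only [hi, if_true]
      rw [sg_add]
      have : sg 1 = -1 := by decide
      rw [this]; ring
    · simp only [hi, if_false, add_zero, mul_zero, sub_zero]
  simp_rw [h1] at h0
  rw [Finset.sum_sub_distrib, ← Finset.mul_sum, ← Finset.sum_filter, filter_double hn,
    Finset.sum_pair] at h0
  · linarith
  · intro e
    exact half_ne hn (by linear_combination -e)

/-- Main theorem: reflection products have no period `d` with `n / d ≥ 3`. -/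
theorem reflection {w : ℕ} (hn : n = 4 * w) (hw : Odd w) (hw1 : 1 < w) {h : ZMod n → ℤ}
    (hs : ∀ i, h i = 1 ∨ h i = -1)
    (hp : ∀ t : ZMod n, t ≠ 0 → ∑ i, h i * h (i + t) = 0) (c : ZMod n) (d : ℕ) (hd : d ∣ n)
    (hd3 : 3 * d ≤ n)
    (hper : ∀ i : ZMod n, h (i + d) * h (c - (i + d)) = h i * h (c - i)) : False := by
  have hT := T_per hn hw hs hp c (d : ZMod n) hper
  have hd0 : 0 < d := Nat.pos_of_dvd_of_pos hd (by omega)
  by_cases hc : ∃ c', c = c' + c'
  · obtain ⟨c', rfl⟩ := hc
    have hsum := main_sum hn hs hp c'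
    rcases Nat.even_or_odd d with hev | hod
    · obtain ⟨p, hp2⟩ := hev
      obtain ⟨e, he⟩ := hd
      have hper2 : ∀ k : ℕ, sg (T h (c' + c') (((k + p : ℕ) : ZMod n) + ((k + p : ℕ) : ZMod n)))
          = sg (T h (c' + c') ((k : ZMod n) + (k : ZMod n))) := by
        intro k
        rw [← hT ((k : ZMod n) + (k : ZMod n))]
        congr 2
        rw [hp2]; push_cast; ring
      have hsum2 := sum_periodic
        (fun k : ℕ => sg (T h (c' + c') ((k : ZMod n) + (k : ZMod n)))) p (2 * e) hper2
      have hn2 : p * (2 * e) = n := by rw [he, hp2]; ring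
      rw [hn2, ← sum_zmod (fun k : ZMod n => sg (T h (c' + c') (k + k))), hsum] at hsum2
      have he3 : 3 ≤ e := by
        by_contra hcon
        have : e ≤ 2 := by omega
        have : d * e ≤ d * 2 := Nat.mul_le_mul_left d this
        omega
      generalize ∑ i ∈ range p, sg (T h (c' + c') ((i : ZMod n) + (i : ZMod n))) = X at hsum2
      have hdvd : (e : ℤ) ∣ 2 := by
        rcases sg_sq (T h (c' + c') (c' + c')) with e1 | e1
        · rw [e1] at hsum2
          refine ⟨X, ?_⟩
          push_cast at hsum2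
          linarith
        · rw [e1] at hsum2
          refine ⟨-X, ?_⟩
          push_cast at hsum2
          linarith
      have := Int.le_of_dvd (by norm_num) hdvd
      omega
    · -- d odd
      let π : ZMod n →+* ZMod 2 := ZMod.castHom (show 2 ∣ n by omega) (ZMod 2)
      have hzero : ∀ i : ZMod n, T h (c' + c') (i + i) = 0 := by
        intro i
        rw [← hT (i + i)]
        have hne : ∀ j : ZMod n, j + j ≠ i + i + (d : ZMod n) := by
          intro j hj
          have := congrArg π hj
          simp only [map_add, map_natCast] at this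
          rw [two_torsion, two_torsion, (ZMod.natCast_eq_one_iff_odd).mpr hod] at this
          exact absurd this (by decide)
        unfold T
        have h1 : (univ.filter fun j : ZMod n => j + j = i + i + (d : ZMod n)) = ∅ := by
          ext j
          simp [hne j]
        rw [h1]
        simp [(hne c').symm]
      simp only [hzero] at hsum
      have : sg 0 = 1 := by decide
      rw [this] at hsum
      simp [ZMod.card] at hsum
      omega
  · have hc' : ∀ i : ZMod n, i + i ≠ c := fun i hi => hc ⟨i, hi.symm⟩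
    have hT2 : T h c (c + d + d) = T h c c := by rw [hT, hT]
    have e1 : T h c c = 1 := by
      unfold T
      have h1 : (univ.filter fun j : ZMod n => j + j = c) = ∅ := by
        ext j
        simp [hc' j]
      rw [h1]
      simp
    have e2 : T h c (c + d + d) = 0 := by
      unfold T
      have h1 : (univ.filter fun j : ZMod n => j + j = c + d + d) = ∅ := by
        ext j
        simp only [Finset.mem_filter, Finset.mem_univ, true_and, Finset.notMem_empty, iff_false]
        intro hj
        exact hc' (j - d) (by linear_combination hj)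
      have h2 : c + d + d ≠ c := by
        intro hj
        have h3 : ((d + d : ℕ) : ZMod n) = 0 := by
          push_cast
          linear_combination hj
        rw [ZMod.natCast_eq_zero_iff] at h3
        have := Nat.le_of_dvd (by omega) h3
        omega
      rw [h1]
      simp [h2]
    rw [e1, e2] at hT2
    exact absurd hT2 (by decide)

end

/-- Product rows: `h (i + m j) = a i * b j`. -/
theorem product {m L : ℕ} (hm : 2 ≤ m) (hL : 2 ≤ L) {n : ℕ} [NeZero n] (hn : n = m * L)
    {h : ZMod n → ℤ} (hp : ∀ t : ZMod n, t ≠ 0 → ∑ i, h i * h (i + t) = 0) (a b : ℕ → ℤ)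
    (ha : ∀ i, a i = 1 ∨ a i = -1) (hb : ∀ j, b j = 1 ∨ b j = -1)
    (hab : ∀ i < m, ∀ j < L, h ((i + m * j : ℕ) : ZMod n) = a i * b j) : False := by
  have hab' : ∀ i < m, ∀ j, h ((m * j + i : ℕ) : ZMod n) = a i * b (j % L) := by
    intro i hi j
    rw [← hab i hi (j % L) (Nat.mod_lt _ (by omega))]
    congr 1
    have h1 : m * j + i = (i + m * (j % L)) + n * (j / L) := by
      rw [hn]
      conv_lhs => rw [← Nat.mod_add_div j L]
      ring
    rw [h1]
    simp
  have ha2 : ∀ i, a i * a i = 1 := fun i => by rcases ha i with e | e <;> rw [e] <;> norm_num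
  have hb2 : ∀ i, b i * b i = 1 := fun i => by rcases hb i with e | e <;> rw [e] <;> norm_num
  have hnz : ∀ t : ℕ, 0 < t → t < n → ((t : ℕ) : ZMod n) ≠ 0 := by
    intro t h0 h1 h2
    rw [ZMod.natCast_eq_zero_iff] at h2
    exact absurd (Nat.le_of_dvd h0 h2) (by omega)
  have hmn : m < n := by rw [hn]; nlinarith
  -- shift `m`
  have s1 := hp _ (hnz m (by omega) hmn)
  rw [sum_zmod_blocks hn] at s1
  have s1' : ∑ j ∈ range L, ∑ i ∈ range m, (b (j % L) * b ((j + 1) % L)) = 0 := by
    rw [← s1]
    refine Finset.sum_congr rfl fun j _ => Finset.sum_congr rfl fun i hi => ?_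
    subst hn
    have hi' := Finset.mem_range.mp hi
    have e1 : ((m * j + i : ℕ) : ZMod (m * L)) + (m : ZMod (m * L))
        = ((m * (j + 1) + i : ℕ) : ZMod (m * L)) := by push_cast; ring
    rw [e1, hab' i hi' j, hab' i hi' (j + 1)]
    linear_combination (-(b (j % L) * b ((j + 1) % L))) * ha2 i
  have s1'' : ∑ j ∈ range L, (b (j % L) * b ((j + 1) % L)) = 0 := by
    simp only [Finset.sum_const, Finset.card_range, nsmul_eq_mul] at s1'
    rw [← Finset.mul_sum] at s1'
    rcases mul_eq_zero.mp s1' with e | e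
    · exfalso
      have : m = 0 := by exact_mod_cast e
      omega
    · exact e
  -- shift `m - 1`
  obtain ⟨r, rfl⟩ : ∃ r, m = r + 1 := ⟨m - 1, by omega⟩
  have s2 := hp _ (hnz r (by omega) (by omega))
  rw [sum_zmod_blocks hn] at s2
  have s2' : ∑ j ∈ range L, (∑ i ∈ range r, (a (i + 1) * a i) * (b (j % L) * b ((j + 1) % L))
      + a 0 * a r) = 0 := by
    rw [← s2]
    refine Finset.sum_congr rfl fun j _ => ?_
    rw [Finset.sum_range_succ']
    subst hn
    congr 1
    · refine Finset.sum_congr rfl fun i hi => ?_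
      have hi' := Finset.mem_range.mp hi
      have e1 : (((r + 1) * j + (i + 1) : ℕ) : ZMod ((r + 1) * L)) + (r : ZMod ((r + 1) * L))
          = (((r + 1) * (j + 1) + i : ℕ) : ZMod ((r + 1) * L)) := by push_cast; ring
      rw [e1, hab' (i + 1) (by omega) j, hab' i (by omega) (j + 1)]
      ring
    · have e1 : (((r + 1) * j + 0 : ℕ) : ZMod ((r + 1) * L)) + (r : ZMod ((r + 1) * L))
          = (((r + 1) * j + r : ℕ) : ZMod ((r + 1) * L)) := by push_cast; ring
      rw [e1, hab' 0 (by omega) j, hab' r (by omega) j]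
      linear_combination (-(a 0 * a r)) * hb2 (j % L)
  rw [Finset.sum_add_distrib, Finset.sum_comm] at s2'
  have s3 : ∑ i ∈ range r, ∑ j ∈ range L, (a (i + 1) * a i) * (b (j % L) * b ((j + 1) % L)) = 0 := by
    refine Finset.sum_eq_zero fun i _ => ?_
    rw [← Finset.mul_sum, s1'', mul_zero]
  rw [s3, zero_add] at s2'
  simp only [Finset.sum_const, Finset.card_range, nsmul_eq_mul] at s2'
  rcases mul_eq_zero.mp s2' with e | e
  · have : L = 0 := by exact_mod_cast e
    omega
  · rcases ha 0 with e0 | e0 <;> rcases ha r with e1 | e1 <;> rw [e0, e1] at e <;> norm_num at e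

end Vale.Agent.P033
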