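import Vale.Agent.Lib.P033.TwentyNine

/-!
# P033: periods of reflection products and of shift products
-/

namespace Vale.Agent.P033

open Finset

theorem sg_inj : ∀ x y : ZMod 2, sg x = sg y → x = y := by decide

/-- Reflection products have no period `p` with `2 p ≠ 0`. -/
theorem reflection_period {n : ℕ} [NeZero n] {w : ℕ} (hn : n = 4 * w) (hw : Odd w) (hw1 : 1 < w)
    {h : ZMod n → ℤ} (hs : ∀ i, h i = 1 ∨ h i = -1)
    (hp : ∀ t : ZMod n, t ≠ 0 → ∑ i, h i * h (i + t) = 0) (c p : ZMod n) (hp2 : p + p ≠ 0)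
    (hper : ∀ i : ZMod n, h (i + p) * h (c - (i + p)) = h i * h (c - i)) : False := by
  have hk : ∀ k : ℕ, ∀ i : ZMod n,
      h (i + p * k) * h (c - (i + p * k)) = h i * h (c - i) := by
    intro k
    induction k with
    | zero => intro i; simp
    | succ k ih =>
      intro i
      have e : i + p * ((k + 1 : ℕ) : ZMod n) = (i + p * k) + p := by push_cast; ring
      rw [e, hper, ih]
  have hn0 : 0 < n := by omega
  set d := Nat.gcd p.val n with hd
  have hdn : d ∣ n := Nat.gcd_dvd_right _ _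
  have hdp : d ∣ p.val := Nat.gcd_dvd_left _ _
  have hd0 : 0 < d := Nat.pos_of_dvd_of_pos hdn hn0
  have hpval : ((p.val : ℕ) : ZMod n) = p := ZMod.natCast_zmod_val p
  have hd1 : ¬ n ∣ 2 * d := by
    intro h1
    apply hp2
    have h2 : n ∣ p.val + p.val := by
      obtain ⟨x, hx⟩ := hdp
      rw [← two_mul, hx, ← mul_assoc]
      exact Dvd.dvd.mul_right h1 x
    have h3 : ((p.val + p.val : ℕ) : ZMod n) = 0 := (ZMod.natCast_eq_zero_iff _ _).mpr h2
    push_cast at h3
    rwa [hpval] at h3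
  obtain ⟨e, he⟩ := hdn
  have he3 : 3 ≤ e := by
    by_contra hcon
    have : e = 0 ∨ e = 1 ∨ e = 2 := by omega
    rcases this with rfl | rfl | rfl
    · omega
    · exact hd1 ⟨2, by rw [he]; ring⟩
    · exact hd1 ⟨1, by rw [he]; ring⟩
  have hlt : Nat.gcd p.val n < n := by
    rw [← hd]
    have : d * 3 ≤ d * e := Nat.mul_le_mul_left d he3
    omega
  obtain ⟨k, -, hk2⟩ := Nat.exists_mul_mod_eq_gcd hlt
  have hcast : (d : ZMod n) = p * k := by
    rw [← hpval]
    have h1 : ((p.val * k : ℕ) : ZMod n) = ((p.val * k % n : ℕ) : ZMod n) := by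
      rw [ZMod.natCast_mod]
    rw [hk2] at h1
    push_cast at h1
    rw [hpval] at h1 ⊢
    exact h1.symm
  refine reflection hn hw hw1 hs hp c d ⟨e, he⟩ ?_ (fun i => ?_)
  · have : d * 3 ≤ d * e := Nat.mul_le_mul_left d he3
    omega
  · rw [hcast]
    exact hk k i

theorem prod_sg {n : ℕ} [NeZero n] {h : ZMod n → ℤ} (hs : ∀ i, h i = 1 ∨ h i = -1)
    (F : Finset (ZMod n)) (i : ZMod n) :
    ∏ j ∈ F, h (i + j) = sg (∑ j ∈ F, B h (i + j)) := by
  classical
  induction F using Finset.induction_on with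
  | empty => simp [sg]
  | insert a s ha ih =>
    rw [Finset.prod_insert ha, Finset.sum_insert ha, sg_add, ih, h_sg hs (i + a)]
    rfl

/-- The periods of a shift product `∏_{j ∈ F} h (i + j)` are the periods of `F`. -/
theorem shift_period {n : ℕ} [NeZero n] {w : ℕ} (hn : n = 4 * w) (hw : Odd w)
    {h : ZMod n → ℤ} (hs : ∀ i, h i = 1 ∨ h i = -1)
    (hp : ∀ t : ZMod n, t ≠ 0 → ∑ i, h i * h (i + t) = 0) (F : Finset (ZMod n)) (p : ZMod n)
    (hper : ∀ i : ZMod n, ∏ j ∈ F, h (i + p + j) = ∏ j ∈ F, h (i + j)) (s : ZMod n) :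
    s + p ∈ F ↔ s ∈ F := by
  obtain ⟨l, hl⟩ := B_corr hn hw hs hp
  have hD : ∀ i : ZMod n, ∑ j ∈ F, B h (i + p + j) = ∑ j ∈ F, B h (i + j) := by
    intro i
    refine sg_inj _ _ ?_
    rw [← prod_sg hs, ← prod_sg hs, hper i]
  have key : ∀ s : ZMod n, ∑ i, (∑ j ∈ F, B h (i + j)) * B h (i + s)
      = (F.card : ZMod 2) * l + (if s ∈ F then 1 else 0) := by
    intro s
    simp_rw [Finset.sum_mul]
    rw [Finset.sum_comm]
    have h1 : ∀ j ∈ F, ∑ i, B h (i + j) * B h (i + s) = l + (if s = j then 1 else 0) := by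
      intro j _
      have h2 := hl (s - j)
      have h3 : ∑ i, B h i * B h (i + (s - j)) = ∑ i, B h (i + j) * B h (i + s) :=
        (Fintype.sum_equiv (Equiv.addRight j) _ _ (fun i => by
          simp only [Equiv.coe_addRight]
          congr 2
          ring)).symm
      rw [← h3, h2]
      simp only [sub_eq_zero]
    rw [Finset.sum_congr rfl h1, Finset.sum_add_distrib]
    simp
  have e1 := key (s + p)
  have e2 := key s
  have e3 : ∑ i, (∑ j ∈ F, B h (i + j)) * B h (i + (s + p))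
      = ∑ i, (∑ j ∈ F, B h (i + j)) * B h (i + s) := by
    refine Fintype.sum_equiv (Equiv.addRight p) _ _ (fun i => ?_)
    simp only [Equiv.coe_addRight]
    rw [hD i]
    congr 2
    ring
  rw [e1, e2] at e3
  have e4 := add_left_cancel e3
  by_cases h1 : s + p ∈ F <;> by_cases h2 : s ∈ F <;> simp [h1, h2] at e4 ⊢

/-- Product rows, without assuming that the factors are signs. -/
theorem product_int {m L : ℕ} (hm : 2 ≤ m) (hL : 2 ≤ L) {n : ℕ} [NeZero n] (hn : n = m * L)
    {h : ZMod n → ℤ} (hs : ∀ i, h i = 1 ∨ h i = -1)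
    (hp : ∀ t : ZMod n, t ≠ 0 → ∑ i, h i * h (i + t) = 0) (a b : ℕ → ℤ)
    (hab : ∀ i < m, ∀ j < L, h ((i + m * j : ℕ) : ZMod n) = a i * b j) : False := by
  have hu : ∀ i < m, ∀ j < L, (a i = 1 ∨ a i = -1) ∧ (b j = 1 ∨ b j = -1) := by
    intro i hi j hj
    have h1 : IsUnit (a i * b j) := by
      rw [← hab i hi j hj, Int.isUnit_iff]
      exact hs _
    exact ⟨Int.isUnit_iff.mp (isUnit_of_mul_isUnit_left h1),
      Int.isUnit_iff.mp (isUnit_of_mul_isUnit_right h1)⟩
  refine product hm hL hn hp (fun i => if i < m then a i else 1) (fun j => if j < L then b j else 1)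
    (fun i => ?_) (fun j => ?_) (fun i hi j hj => ?_)
  · by_cases hi : i < m
    · simpa [hi] using (hu i hi 0 (by omega)).1
    · simp [hi]
  · by_cases hj : j < L
    · simpa [hj] using (hu 0 (by omega) j hj).2
    · simp [hj]
  · simpa [hi, hj] using hab i hi j hj

end Vale.Agent.P033
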